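import Vale.Agent.P291Y.L0
import Vale.Agent.P291Z.T4

set_option linter.all false

/-!
# Dictionary between raw cochains and functionals and the bundled ones
-/

noncomputable section

namespace Vale.Agent.P291Y

open Set Function Topology
open P291Z (Coch BM ev δ)

variable {X Y X₁ X₂ : TopCat.{0}}

/-- the raw function of a cochain -/
def raw (a : Coch X) : C X := a.1

/-- the cochain of a raw function -/
def hv (a : C X) (h : IsCo a) : Coch X := ⟨a, h⟩

theorem raw_hv (a : C X) (h : IsCo a) : raw (hv a h) = a := rfl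

theorem raw_injective : Injective (raw : Coch X → C X) := fun _ _ h => Subtype.ext h

theorem isCo_raw (a : Coch X) : IsCo (raw a) := a.2

theorem IsCo.exists {a : C X} (h : IsCo a) : ∃ a' : Coch X, a = raw a' := ⟨hv a h, rfl⟩

theorem cup_raw (a b : Coch X) : cup (raw a) (raw b) = raw (a * b) := rfl

theorem cob_raw (a : Coch X) : cob (raw a) = raw (δ a) := rfl

theorem pull_raw (f : X → Y) (a : Coch Y) : pull f (raw a) = raw (P291Z.pull f a) := rfl

theorem supp_raw (a : Coch X) : supp (raw a) = P291Z.supp a := rfl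

theorem deg_raw {k : ℤ} {a : Coch X} : IsDeg k (raw a) ↔ P291Z.IsDeg k a := Iff.rfl

theorem lin_raw (r : ℂ) (a b : Coch X) : lin r (raw a) (raw b) = raw (r • a + b) := rfl

theorem raw_zero : raw (0 : Coch X) = fun _ => 0 := rfl

theorem closed_raw {a : Coch X} : Closed (raw a) ↔ a ∈ P291Z.Zs X :=
  ⟨fun h => h.2, fun h => ⟨a.2, h⟩⟩

theorem zc_raw {a : Coch X} : Zc (raw a) ↔ a ∈ P291Z.Zc X :=
  ⟨fun h => ⟨h.2, h.1.2⟩, fun h => ⟨⟨a.2, h.2⟩, h.1⟩⟩

theorem cohom_raw {P : Set X → Prop} {a b : Coch X} : Cohom P (raw a) (raw b) ↔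
    ∃ c, P (P291Z.supp c) ∧ P291Z.supp (a - b - δ c) = ∅ :=
  ⟨fun ⟨c, hc, h₁, h₂⟩ => ⟨hv c hc, h₁, h₂⟩, fun ⟨c, h₁, h₂⟩ => ⟨raw c, c.2, h₁, h₂⟩⟩

theorem wind_eq (r : ℕ) (i : Fin r) :
    wind r i = raw (X := Cr r) (P291Z.pull (fun z : Cr r => z i) P291Z.wind) := by
  funext l
  match l with
  | [] => rfl
  | [_] => rfl
  | [_, _] => rfl
  | _ :: _ :: _ :: _ => exact if_neg (by simp)

theorem foldr_cup_raw : ∀ L : List (Coch X), (L.map raw).foldr cup (unit X) = raw L.prod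
  | [] => rfl
  | a :: L => by
    rw [List.map_cons, List.foldr_cons, foldr_cup_raw L, List.prod_cons]
    rfl

theorem tau_eq (r : ℕ) : tau r = raw (X := Cr r) (P291Z.tau r) := by
  refine Eq.trans ?_ (foldr_cup_raw (X := Cr r)
    (List.ofFn fun i : Fin r => P291Z.pull (fun z : Cr r => z i) (δ P291Z.wind)))
  rw [List.map_ofFn, tau]
  congr 2
  funext i
  rw [wind_eq, cob_raw, P291Z.δ_pull]
  rfl

theorem isThom_raw {Z : X → Prop} {chart : (r : ℕ) → (Cr r → X) → Prop} {t : Coch X} :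
    IsThom Z chart (raw t) ↔ P291Z.IsThom {x | Z x} chart t := by
  refine and_congr closed_raw (and_congr Iff.rfl (forall_congr' fun r => forall_congr' fun φ =>
    imp_congr Iff.rfl (and_congr ?_ Iff.rfl)))
  rw [tau_eq]
  refine (cohom_raw (X := Cr r) (a := P291Z.pull φ t) (b := P291Z.tau r)).trans
    (exists_congr fun c => and_congr_left' ⟨fun h z hz => funext (h z hz), fun h z hz i => ?_⟩)
  exact congrFun (h hz) i

open Classical in
/-- the raw functional of a Borel-Moore class -/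
def fn (b : BM X) : B X := fun a => if h : IsCo a then ev b (hv a h) else 0

theorem fn_raw (b : BM X) (a : Coch X) : fn b (raw a) = ev b a := dif_pos a.2

theorem fn_of (b : BM X) {a : C X} (h : IsCo a) : fn b a = ev b (hv a h) := dif_pos h

theorem fn_of_not (b : BM X) {a : C X} (h : ¬IsCo a) : fn b a = 0 := dif_neg h

theorem fn_injective : Injective (fn : BM X → B X) := fun b b' h =>
  P291Z.BM.ext_ev fun a _ => by rw [← fn_raw, ← fn_raw, h]

theorem fn_inj {b b' : BM X} : fn b = fn b' ↔ b = b' := fn_injective.eq_iff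

theorem fn_lc (r : ℂ) (b b' : BM X) : fn (r • b + b') = fun a => r * fn b a + fn b' a := by
  funext a
  by_cases h : IsCo a
  · rw [fn_of _ h, fn_of _ h, fn_of _ h, P291Z.ev_eq, P291Z.ev_eq, P291Z.ev_eq]; rfl
  · rw [fn_of_not _ h, fn_of_not _ h, fn_of_not _ h, mul_zero, add_zero]

theorem fn_zero : fn (0 : BM X) = fun _ => 0 := by
  funext a
  by_cases h : IsCo a
  · rw [fn_of _ h, P291Z.ev_eq]; rfl
  · exact fn_of_not _ h

theorem fn_eq_zero {b : BM X} : (∀ a, fn b a = 0) ↔ b = 0 :=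
  ⟨fun h => fn_injective ((funext h).trans fn_zero.symm), fun h a => by rw [h, fn_zero]⟩

theorem isBM_fn (b : BM X) : IsBM (fn b) := by
  refine ⟨fun a ha => ?_, fun a a' ha ha' => ?_⟩
  · by_cases h : IsCo a
    · rw [fn_of _ h, P291Z.ev_eq, P291Z.cls_of_notMem (a := hv a h) fun h' => ha (zc_raw.2 h'), map_zero]
    · exact fn_of_not _ h
  · obtain ⟨a, rfl⟩ := ha.1.1.exists
    obtain ⟨a', rfl⟩ := ha'.1.1.exists
    refine ⟨fun r => ?_, fun h => ?_⟩
    · rw [lin_raw, fn_raw, fn_raw, fn_raw, P291Z.ev_eq, P291Z.ev_eq, P291Z.ev_eq,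
        P291Z.cls_add ((P291Z.Zc X).smul_mem r (zc_raw.1 ha)) (zc_raw.1 ha'),
        P291Z.cls_smul r (zc_raw.1 ha), map_add, map_smul, smul_eq_mul]
    · rw [fn_raw, fn_raw, P291Z.ev_eq, P291Z.ev_eq, P291Z.cls_eq_of_Bc (cohom_raw.1 h)]

theorem IsBM.exists {β : B X} (h : IsBM β) : ∃ b : BM X, β = fn b := by
  have z0 : Zc (raw (0 : Coch X)) := zc_raw.2 (P291Z.Zc X).zero_mem
  have h0 : β (raw 0) = 0 := by
    have := (h.2 _ _ z0 z0).1 1
    rwa [lin_raw, one_smul, add_zero, one_mul, left_eq_add] at this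
  let L : P291Z.Zc X →ₗ[ℂ] ℂ :=
    { toFun := fun a => β (raw a.1)
      map_add' := fun a a' => by
        have := (h.2 _ _ (zc_raw.2 a.2) (zc_raw.2 a'.2)).1 1
        rw [lin_raw, one_smul, one_mul] at this
        exact this
      map_smul' := fun r a => by
        have := (h.2 _ _ (zc_raw.2 a.2) z0).1 r
        rw [lin_raw, add_zero, h0, add_zero] at this
        exact this }
  refine ⟨Submodule.liftQ _ L fun a ⟨c, h₁, h₂⟩ => ((h.2 _ _ (zc_raw.2 a.2) z0).2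
    (cohom_raw.2 ⟨c, h₁, by rw [sub_zero]; exact h₂⟩)).trans h0, funext fun a => ?_⟩
  by_cases ha : Zc a
  · rw [fn_of _ ha.1.1, P291Z.ev_eq, P291Z.cls_of_mem (a := hv a ha.1.1) (zc_raw.1 ha)]
    rfl
  · rw [h.1 a ha, (isBM_fn _).1 a ha]

theorem isBM_iff {β : B X} : IsBM β ↔ ∃ b : BM X, β = fn b :=
  ⟨IsBM.exists, fun ⟨b, e⟩ => e ▸ isBM_fn b⟩

theorem bdeg_fn {k : ℤ} {b : BM X} : BDeg k (fn b) ↔ P291Z.BM.IsDeg k b := by
  refine ⟨fun h j a hj ha => ?_, fun h j a hj ha => ?_⟩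
  · rw [← fn_raw]; exact h j _ hj ha
  · by_cases hc : IsCo a
    · rw [fn_of _ hc]; exact h j _ hj ha
    · exact fn_of_not _ hc

theorem push_fn {f : X → Y} {b : BM X} {b' : BM Y} :
    Push f (fn b) (fn b') ↔ P291Z.Push f b b' := by
  refine ⟨fun h a ha => ?_, fun h a ha => ?_⟩
  · rw [← fn_raw, ← fn_raw]; exact h _ (zc_raw.2 ha)
  · obtain ⟨a, rfl⟩ := ha.1.1.exists
    rw [pull_raw, fn_raw, fn_raw]; exact h a (zc_raw.1 ha)

theorem res_fn {j : X → Y} {b : BM Y} {b' : BM X} :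
    Res j (fn b) (fn b') ↔ P291Z.Res j b b' := by
  refine ⟨fun h a ha hs => ?_, fun h a ha hs => ?_⟩
  · rw [← fn_raw, ← fn_raw]; exact h _ (zc_raw.2 ha) hs
  · obtain ⟨a, rfl⟩ := ha.1.1.exists
    rw [pull_raw, fn_raw, fn_raw]; exact h a (zc_raw.1 ha) hs

theorem gys_fn {i : X → Y} {t : Coch Y} {b : BM Y} {b' : BM X} :
    Gys i (raw t) (fn b) (fn b') ↔ P291Z.Gys i t b b' := by
  refine ⟨fun h a ha hs => ?_, fun h a hc ha hs => ?_⟩
  · rw [← fn_raw, ← fn_raw]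
    exact h _ a.2 ha fun x hx => Set.disjoint_left.1 hs hx ⟨x, rfl⟩
  · obtain ⟨a, rfl⟩ := hc.exists
    rw [pull_raw, cup_raw, fn_raw, fn_raw]
    exact h a ha (Set.disjoint_left.2 fun y hy ⟨x, e⟩ => hs x (e ▸ hy))

theorem cross_fn {p₁ : X → X₁} {p₂ : X → X₂} {b₁ : BM X₁} {b₂ : BM X₂} {b : BM X} :
    Cross p₁ p₂ (fn b₁) (fn b₂) (fn b) ↔ P291Z.Cross p₁ p₂ b₁ b₂ b := by
  refine ⟨fun h a₁ h₁ a₂ h₂ => ?_, fun h a₁ a₂ h₁ h₂ => ?_⟩
  · rw [← fn_raw, ← fn_raw, ← fn_raw]; exact h _ _ (zc_raw.2 h₁) (zc_raw.2 h₂)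
  · obtain ⟨a₁, rfl⟩ := h₁.1.1.exists
    obtain ⟨a₂, rfl⟩ := h₂.1.1.exists
    rw [pull_raw, pull_raw, cup_raw, fn_raw, fn_raw, fn_raw]
    exact h a₁ (zc_raw.1 h₁) a₂ (zc_raw.1 h₂)

end Vale.Agent.P291Y

end
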