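import Vale.Agent.P291Y.L0
import Vale.Agent.P291Z.Eqv

/-!
# Spaces with a group action, Borel constructions, Thom and Euler cocycles, equivariant classes
-/

noncomputable section

namespace Vale.Agent.P291Y

/-- A complex vector space with a topology. -/
structure TV where
  /-- the vectors -/
  Vec : Type
  /-- addition -/
  [ag : AddCommGroup Vec]
  /-- scalars -/
  [md : Module ℂ Vec]
  /-- topology -/
  [top : TopologicalSpace Vec]

/-- `c x + y` -/
def vlin (V : Type) [AddCommGroup V] [Module ℂ V] (c : ℂ) (x y : V) : V := c • x + y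

/-- The origin. -/
def vzero (V : Type) [AddCommGroup V] : V := 0

/-- The product. -/
def mkProd (V W : Type) [AddCommGroup V] [Module ℂ V] [TopologicalSpace V] [AddCommGroup W]
    [Module ℂ W] [TopologicalSpace W] : TV := ⟨V × W⟩

/-- The product of a family. -/
def mkPi (J : Type) (V : J → Type) [∀ j, AddCommGroup (V j)] [∀ j, Module ℂ (V j)]
    [∀ j, TopologicalSpace (V j)] : TV := ⟨∀ j, V j⟩

namespace TV

/-- The underlying space. -/
def sp (V : TV) : TopCat.{0} := @TopCat.of V.Vec V.top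

/-- The origin. -/
def zero (V : TV) : V.Vec := @vzero _ V.ag

/-- `c x + y` -/
def comb (V : TV) : ℂ → V.Vec → V.Vec → V.Vec := @vlin _ V.ag V.md

/-- The product. -/
def times (V W : TV) : TV := @mkProd _ _ V.ag V.md V.top W.ag W.md W.top

/-- The product of a family. -/
def pi (J : Type) (V : J → TV) : TV :=
  @mkPi J (fun j => (V j).Vec) (fun j => (V j).ag) (fun j => (V j).md) fun j => (V j).top

/-- A power. -/
def power (J : Type) (V : TV) : TV := pi J fun _ => V

/-- The line. -/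
def line : TV := ⟨ℂ⟩

/-- Matrices. -/
def mat (a b : ℕ) : TV := ⟨Matrix (Fin a) (Fin b) ℂ⟩

/-- Tuples of matrices. -/
def mats {J : Type} (n m : J → ℕ) : TV := pi J fun j => mat (n j) (m j)

end TV

/-- A space with an action of `G`. -/
structure GS (G : Type) where
  /-- the space -/
  spc : TopCat.{0}
  /-- the action -/
  act : G → spc → spc

variable {G G' : Type}

/-- The points. -/
abbrev GS.Pt (Z : GS G) : Type := Z.spc

/-- A complex representation of `G`. -/
structure VS (G : Type) where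
  /-- the vector space -/
  tv : TV
  /-- the action -/
  rho : G → tv.Vec → tv.Vec

/-- The underlying space. -/
def VS.gs (W : VS G) : GS G := ⟨W.tv.sp, W.rho⟩

/-- The product of two spaces. -/
def tprod (X Y : TopCat.{0}) : TopCat.{0} := TopCat.of (X × Y)

/-- A subspace. -/
def tsub (X : TopCat.{0}) (S : X → Prop) : TopCat.{0} := TopCat.of (Subtype S)

/-- A quotient space. -/
def tquo (X : TopCat.{0}) (r : X → X → Prop) : TopCat.{0} := TopCat.of (Quot r)

/-- The point. -/
def pt (G : Type) : GS G := ⟨TopCat.of Unit, fun _ x => x⟩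

/-- The product. -/
def prod (Z P : GS G) : GS G :=
  ⟨tprod Z.spc P.spc, fun g (x : Z.Pt × P.Pt) => (Z.act g x.1, P.act g x.2)⟩

/-- A power of a representation. -/
def VS.pow (K : Type) (W : VS G) : VS G :=
  ⟨W.tv.power K, fun g (x : K → W.tv.Vec) k => W.rho g (x k)⟩

/-- Restriction of the action along `φ`. -/
def res (φ : G' → G) (Z : GS G) : GS G' := ⟨Z.spc, fun g => Z.act (φ g)⟩

/-- Invariant subsets. -/
def Inv (Z : GS G) (S : Z.Pt → Prop) : Prop := ∀ g x, S x → S (Z.act g x)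

/-- An invariant subspace. -/
def sub (Z : GS G) (S : Z.Pt → Prop) (h : Inv Z S) : GS G :=
  ⟨tsub Z.spc S, fun g (x : Subtype S) => (⟨Z.act g x.1, h g x.1 x.2⟩ : Subtype S)⟩

/-- Points in the same orbit. -/
def Same (Z : GS G) (a b : Z.Pt) : Prop := ∃ g, Z.act g b = a

/-- The orbit space. -/
def orb (Z : GS G) : TopCat.{0} := tquo Z.spc (Same Z)

/-- The orbit of a point. -/
def omk (Z : GS G) (x : Z.Pt) : orb Z := Quot.mk (Same Z) x

/-- The map of orbit spaces `(Z × P) / G → (Z' × P') / G'` induced by an equivariant map. -/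
def omap (Z P : GS G) (Z' P' : GS G') (f : Z.Pt → P.Pt → Z'.Pt) (f' : P.Pt → P'.Pt)
    (q : orb (prod Z P)) : orb (prod Z' P') :=
  (fun x : Z.Pt × P.Pt => omk (prod Z' P') (f x.1 x.2, f' x.2)) (Quot.out q)

/-- An invariant family of subspaces of a representation. -/
structure VB (G : Type) where
  /-- the base -/
  base : GS G
  /-- the representation -/
  fib : VS G
  /-- the family -/
  Mem : base.Pt × fib.tv.Vec → Prop
  /-- invariance -/
  inv : Inv (prod base fib.gs) Mem

/-- The total space. -/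
def VB.tot (E : VB G) : GS G := sub (prod E.base E.fib.gs) E.Mem E.inv

/-- A point of the total space. -/
def VB.pnt (E : VB G) (z : E.base.Pt) (w : E.fib.tv.Vec) (h : E.Mem (z, w)) : E.tot.Pt :=
  (⟨(z, w), h⟩ : Subtype E.Mem)

/-- The trivial family. -/
def triv (Z : GS G) (W : VS G) : VB G := ⟨Z, W, fun _ => True, fun _ _ h => h⟩

/-- A Thom cocycle. -/
def thomOf (X : TopCat.{0}) (Z : X → Prop) (chart : (r : ℕ) → (Cr r → X) → Prop) : C X :=
  (@Classical.epsilon (Subtype IsCo) ⟨⟨fun _ => 0, rfl, 0, fun _ _ => rfl⟩⟩ fun t =>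
    IsThom Z chart t.1).1

/-- `q` is the orbit of `((z, w), u)`. -/
def VB.At (E : VB G) (P : GS G) (q : orb (prod E.tot P)) (z : E.base.Pt) (w : E.fib.tv.Vec)
    (u : P.Pt) : Prop :=
  ∃ h, q = omk (prod E.tot P) (E.pnt z w h, u)

/-- A Thom cocycle of the vector bundle `(V × P) / G → (Z × P) / G`. -/
def thom (E : VB G) (P : GS G) : C (orb (prod E.tot P)) :=
  thomOf _ (fun q => ∃ z u, E.At P q z E.fib.tv.zero u)
    fun r φ => ∃ z u, ∃ ℓ : (Fin r → ℂ) → E.fib.tv.Vec, ℓ.Injective ∧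
      (∀ c a b, ℓ (fun i => c * a i + b i) = E.fib.tv.comb c (ℓ a) (ℓ b)) ∧
      (∀ w, E.Mem (z, w) ↔ ∃ a, ℓ a = w) ∧ ∀ a, E.At P (φ a) z (ℓ a) u

/-- The Euler cocycle of the section given by an equivariant map `σ`. -/
def euler (Z : GS G) (W : VS G) (P : GS G) (σ : Z.Pt → P.Pt → W.tv.Vec) : C (orb (prod Z P)) :=
  pull (omap Z P (triv Z W).tot P (fun z u => (triv Z W).pnt z (σ z u) trivial) fun u => u)
    (thom (triv Z W) P)

section raw

variable {J J' : Type}

/-- Tuples of matrices over `k`. -/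
abbrev Ms (n m : J → ℕ) (k : Type) : Type := ∀ j, Matrix (Fin (n j)) (Fin (m j)) k

/-- The product of tuples of matrices. -/
def mmul (n m : J → ℕ) (k : Type) [CommRing k] (u : Ms n n k) (u' : Ms n m k) : Ms n m k :=
  fun j => u j * u' j

/-- The group `∏ GL(n j, ℂ)`. -/
def GLs (n : J → ℕ) : Type := ∀ j, GL (Fin (n j)) ℂ

/-- The matrices of a group element. -/
def gmat (n : J → ℕ) (g : GLs n) : Ms n n ℂ := fun j => (g j).1

/-- The inverse. -/
def ginv (n : J → ℕ) (g : GLs n) : GLs n := fun j => (g j)⁻¹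

/-- The unit. -/
def gone (n : J → ℕ) : GLs n := fun _ => 1

/-- The inclusion of the second factor. -/
def ginr (n : J → ℕ) (n' : J' → ℕ) (g : GLs n') : GLs (Sum.elim n n') :=
  Sum.rec (gone n) g

/-- Tuples of surjections. -/
def Onto (n : J → ℕ) (M : ℕ) (u : Ms n (fun _ => M) ℂ) : Prop := ∀ j, (u j).mulVec.Surjective

/-- Tuples of surjections. -/
abbrev Sj (n : J → ℕ) (M : ℕ) : Type := Subtype (Onto n M)

/-- The matrices. -/
def Sj.mt {n : J → ℕ} {M : ℕ} (u : Sj n M) (j : J) : Fin (n j) → Fin M → ℂ := u.1 j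

/-- Add a zero column. -/
def addCol (n : J → ℕ) (M : ℕ) (u : Sj n M) : Sj n (M + 1) :=
  ⟨fun j a => Fin.snoc (α := fun _ => ℂ) (u.mt j a) 0, by exact id (P291Z.addCol M u).2⟩

/-- Restriction of a tuple of surjections along a map of index sets. -/
def resE (n : J → ℕ) (ι : J' → J) (M : ℕ) (u : Sj n M) : Sj (fun j => n (ι j)) M :=
  ⟨fun j => u.mt (ι j), fun j => u.2 (ι j)⟩

/-- The complex dimension of the `M`-th approximation of the classifying space. -/
def dimB [Fintype J] (n : J → ℕ) (M : ℕ) : ℤ := ∑ j, (n j : ℤ) * (M - n j)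

end raw

/-- A finite family of dimensions. -/
structure Dim where
  /-- the index set -/
  Ind : Type
  /-- it is finite -/
  fin : Fintype Ind
  /-- the dimensions -/
  dm : Ind → ℕ

/-- The group `∏ GL(n j, ℂ)`. -/
def GG (n : Dim) : Type := GLs n.dm

/-- Spaces with an action of that group. -/
abbrev SG (n : Dim) : Type 1 := GS (GG n)

/-- Tuples of `n j × m j` matrices. -/
def Mat (n : Dim) (m : n.Ind → ℕ) : VS (GG n) :=
  ⟨TV.mats n.dm m, fun g => mmul n.dm m ℂ (gmat n.dm g)⟩

/-- Approximations of the universal bundle. -/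
def EE (n : Dim) (M : ℕ) : SG n :=
  sub (Mat n fun _ => M).gs (Onto n.dm M) (by exact id fun g _ => (P291Z.EE _ M).smul_mem g)

variable {n n' : Dim}

/-- The `M`-th approximation of the Borel construction. -/
def Bo (Z : SG n) (M : ℕ) : TopCat.{0} := orb (prod Z (EE n M))

/-- The map of Borel constructions induced by an equivariant map. -/
def bmap (Z Z' : SG n) (f : Z.Pt → Z'.Pt) (M : ℕ) : Bo Z M → Bo Z' M :=
  omap Z (EE n M) Z' (EE n M) (fun z _ => f z) fun u => u

/-- The inclusion of consecutive approximations. -/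
def inc (Z : SG n) (M : ℕ) : Bo Z M → Bo Z (M + 1) :=
  omap Z (EE n M) Z (EE n (M + 1)) (fun z _ => z) (addCol n.dm M)

/-- Families of cochains on the approximations. -/
abbrev CG (Z : SG n) : Type := ∀ M, C (Bo Z M)

/-- Families of functionals on the approximations. -/
abbrev BG (Z : SG n) : Type := ∀ M, B (Bo Z M)

/-- Cohomologous cochains. -/
def Coh {X : TopCat.{0}} (a b : C X) : Prop := Cohom (fun _ => True) a b

/-- Compatible families of cocycles of degree `k`; their classes form `H^k_G(Z)`. -/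
def IsHG (Z : SG n) (k : ℤ) (c : CG Z) : Prop :=
  ∀ M, Closed (c M) ∧ IsDeg k (c M) ∧ Coh (pull (inc Z M) (c (M + 1))) (c M)

/-- `cl` presents the algebra `H` as the equivariant cohomology ring `⨁ H^k_G(Z)`. -/
def IsCoh (Z : SG n) (H : Type) [CommRing H] [Algebra ℂ H] (cl : CG Z → H) : Prop :=
  (∀ h, ∃ (s : Finset ℤ) (c : ℤ → CG Z), (∀ k, IsHG Z k (c k)) ∧ h = ∑ k ∈ s, cl (c k)) ∧
  (∀ (s : Finset ℤ) (c : ℤ → CG Z), (∀ k, IsHG Z k (c k)) →
    (∑ k ∈ s, cl (c k) = 0 ↔ ∀ k ∈ s, ∀ M, Coh (c k M) fun _ => 0)) ∧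
  ∀ k k' c c', IsHG Z k c → IsHG Z k' c' → cl (fun M => cup (c M) (c' M)) = cl c * cl c' ∧
    ∀ z, k = k' → cl (fun M => lin z (c M) (c' M)) = z • cl c + cl c'

/-- Families of Borel-Moore classes. -/
def AllBM (Z : SG n) (β : BG Z) : Prop := ∀ M, IsBM (β M)

/-- Families of Borel-Moore classes compatible with the Gysin maps: `H^G_k(Z)`. -/
def IsFam (Z : SG n) (k : ℤ) (β : BG Z) : Prop :=
  AllBM Z β ∧ ∀ M, BDeg (k + 2 * @dimB _ n.fin n.dm M) (β M) ∧
    Gys (inc Z M) (euler Z (Mat n fun _ => 1) (EE n (M + 1))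
      fun _ u j a _ => Sj.mt u j a (Fin.last M)) (β (M + 1)) (β M)

/-- The equivariant fundamental class of a point. -/
def fund (n : Dim) : BG (pt (GG n)) :=
  Classical.epsilon fun β => IsFam _ 0 β ∧ ∀ M, (∀ j, n.dm j ≤ M) →
    β M (euler _ (Mat n fun j => M - n.dm j) _ fun _ _ => TV.zero _) = 1

/-- Push-forward along an equivariant proper map. -/
def PushG (Z Z' : SG n) (f : Z.Pt → Z'.Pt) (β : BG Z) (β' : BG Z') : Prop :=
  ∀ M, Push (bmap Z Z' f M) (β M) (β' M)

/-- Gysin pull-back to the zero set of the equivariant map `σ`. -/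
def GysG (Z Z' : SG n) (f : Z.Pt → Z'.Pt) (W : VS (GG n)) (σ : Z'.Pt → W.tv.Vec) (β' : BG Z')
    (β : BG Z) : Prop :=
  ∀ M, Gys (bmap Z Z' f M) (euler Z' W (EE n M) fun z _ => σ z) (β' M) (β M)

/-- `γ` is the pull-back of `β` to the invariant open part `O` of the vector bundle `E`. -/
def PullG (E : VB (GG n)) (O : E.tot.Pt → Prop) (hO : Inv _ O) (β : BG E.base)
    (γ : BG (sub E.tot O hO)) : Prop :=
  AllBM _ γ ∧ ∃ (h : ∀ z, E.Mem (z, E.fib.tv.zero)) (β' : BG E.tot), AllBM _ β' ∧ ∀ M,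
    Gys (bmap E.base E.tot (fun z => E.pnt z _ (h z)) M) (thom E (EE n M)) (β' M) (β M) ∧
    Res (bmap (sub E.tot O hO) E.tot (Subtype.val (p := O)) M) (β' M) (γ M)

/-- The union of two families of dimensions. -/
def Dim.join (n n' : Dim) : Dim :=
  ⟨n.Ind ⊕ n'.Ind, @instFintypeSum _ _ n.fin n'.fin, Sum.elim n.dm n'.dm⟩

/-- First projection of a product of groups. -/
def fstG (n n' : Dim) (g : GG (n.join n')) : GG n := fun j => g (Sum.inl j)

/-- Second projection of a product of groups. -/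
def sndG (n n' : Dim) (g : GG (n.join n')) : GG n' := fun j => g (Sum.inr j)

/-- `Z × Z'` with the action of a product of two groups. -/
def Pr (Z : SG n) (Z' : SG n') : SG (n.join n') := prod (res (fstG n n') Z) (res (sndG n n') Z')

/-- The cross product of equivariant classes. -/
def CrossG (Z : SG n) (Z' : SG n') (β₁ : BG Z) (β₂ : BG Z') (β : BG (Pr Z Z')) : Prop :=
  AllBM _ β ∧ ∀ M, Cross (X := Bo (Pr Z Z') M)
    (omap (Pr Z Z') (EE _ M) Z (EE n M) (fun (x : Z.Pt × Z'.Pt) _ => x.1) (resE _ Sum.inl M))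
    (omap (Pr Z Z') (EE _ M) Z' (EE n' M) (fun (x : Z.Pt × Z'.Pt) _ => x.2) (resE _ Sum.inr M))
    (β₁ M) (β₂ M) (β M)

end Vale.Agent.P291Y
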