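import Vale.Agent.P291Y.B1
import Vale.Agent.P291Y.L1
import Vale.Agent.P291Z.TSys
import Vale.Agent.P291Z.Coul1

set_option linter.all false

/-!
# Dictionary for spaces with an action, Borel constructions, Thom and Euler cocycles, families
-/

noncomputable section

namespace Vale.Agent.P291Y

open Set Function Topology
open P291Z (Coch BM ev δ Bor)

theorem thomOf_eq (X : TopCat.{0}) (Z : X → Prop) (chart : (r : ℕ) → (Cr r → X) → Prop) :
    thomOf X Z chart = raw (Classical.epsilon (P291Z.IsThom {x | Z x} chart)) :=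
  congrArg (fun p : Coch X → Prop => raw (Classical.epsilon p))
    (funext fun t => propext isThom_raw)

theorem exists_lin {V W : Type} [AddCommGroup V] [Module ℂ V] [AddCommGroup W] [Module ℂ W]
    (ℓ : V → W) (h : ∀ (c : ℂ) a b, ℓ (c • a + b) = c • ℓ a + ℓ b) :
    ∃ L : V →ₗ[ℂ] W, ℓ = L := by
  have h0 : ℓ 0 = 0 := by
    have := h 1 0 0
    rwa [one_smul, one_smul, add_zero, left_eq_add] at this
  exact ⟨⟨⟨ℓ, fun a b => by simpa using h 1 a b⟩, fun c a => by simpa [h0] using h c a 0⟩, rfl⟩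

section general

/-- the light space of a space with an action -/
def hs (H Z : Type) [Group H] [TopologicalSpace Z] [MulAction H Z] : GS H :=
  ⟨TopCat.of Z, fun g (z : Z) => g • z⟩

/-- the light representation of a representation -/
def hr (H W : Type) [Group H] [TopologicalSpace W] [AddCommGroup W] [Module ℂ W]
    [DistribMulAction H W] : VS H :=
  ⟨⟨W⟩, fun g (w : W) => g • w⟩

variable {H H' Z Z' P P' W : Type} [Group H] [Group H'] [TopologicalSpace Z] [MulAction H Z]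
  [TopologicalSpace P] [MulAction H P] [TopologicalSpace Z'] [MulAction H' Z']
  [TopologicalSpace P'] [MulAction H' P']

theorem prod_hs : prod (hs H Z) (hs H P) = hs H (Z × P) := rfl

theorem orb_hs : orb (prod (hs H Z) (hs H P)) = TopCat.of (Bor H Z P) := rfl

theorem pt_hs : pt H = hs H Unit := rfl

theorem out_mk (x : Z × P) : ∃ g : H, g • x = (Bor.mk H x).out :=
  Quotient.exact (Quotient.out_eq (Bor.mk H x))

theorem omap_eq (φ : H →* H') (f : Z → P → Z') (f' : P → P')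
    (hf : ∀ (h : H) (x : Z × P), (f (h • x).1 (h • x).2, f' (h • x).2) = φ h • (f x.1 x.2, f' x.2)) :
    omap (hs H Z) (hs H P) (hs H' Z') (hs H' P') f f' =
      Bor.map φ (fun x => (f x.1 x.2, f' x.2)) hf := by
  refine funext fun q : Bor H Z P => Quotient.inductionOn' q fun x => ?_
  obtain ⟨g, hg⟩ := out_mk (H := H) x
  exact (congrArg (fun y : Z × P => Bor.mk H' (f y.1 y.2, f' y.2)) hg.symm).trans
    (Quotient.sound' ⟨φ g, (hf g x).symm⟩)

variable [TopologicalSpace W] [AddCommGroup W] [Module ℂ W] [DistribMulAction H W]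

theorem gs_hr : (hr H W).gs = hs H W := rfl

theorem pow_hr (K : Type) : (hr H W).pow K = hr H (K → W) := rfl

/-- the light bundle of an invariant family of subspaces -/
def hb (V : SubMulAction H (Z × W)) : VB H :=
  ⟨hs H Z, hr H W, fun x => (x : Z × W) ∈ V, fun g _ h => V.smul_mem g h⟩

theorem tot_hb (V : SubMulAction H (Z × W)) : (hb V).tot = hs H V := rfl

theorem triv_hb : triv (hs H Z) (hr H W) = hb (⊤ : SubMulAction H (Z × W)) := rfl

theorem thom_eq (V : SubMulAction H (Z × W)) :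
    thom (hb V) (hs H P) = raw (X := TopCat.of (Bor H V P)) (P291Z.thom V P) := by
  refine (thomOf_eq _ _ _).trans (congrArg raw (congrArg Classical.epsilon (congrArg₂ P291Z.IsThom
    (Set.ext fun x => ⟨?_, ?_⟩) (funext fun r => funext fun φ => propext ⟨?_, ?_⟩))))
  · rintro ⟨z, u, k, rfl⟩
    exact ⟨(⟨(z, 0), k⟩, u), rfl, rfl⟩
  · rintro ⟨⟨⟨⟨z, w⟩, k⟩, u⟩, rfl : w = 0, rfl⟩
    exact ⟨z, u, k, rfl⟩
  · rintro ⟨z, u, ℓ, h₂, h₁, h₃, h₄⟩
    obtain ⟨L, rfl⟩ := exists_lin (V := Fin r → ℂ) (W := W) ℓ h₁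
    exact ⟨z, u, L, h₂, h₃, h₄⟩
  · rintro ⟨z, u, ℓ, h₂, h₃, h₄⟩
    exact ⟨z, u, ℓ, h₂, fun c (a b : Fin r → ℂ) =>
      (map_add ℓ (c • a) b).trans (congrArg (· + ℓ b) (map_smul ℓ c a)), h₃, h₄⟩

theorem euler_eq (σ : Z → P → W)
    (hσ : ∀ (h : H) (x : Z × P), σ (h • x).1 (h • x).2 = h • σ x.1 x.2) :
    euler (hs H Z) (hr H W) (hs H P) σ =
      raw (X := TopCat.of (Bor H Z P)) (P291Z.euler (fun x => σ x.1 x.2) hσ) :=
  congrArg₂ (pull (X := TopCat.of (Bor H Z P))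
      (Y := TopCat.of (Bor H (⊤ : SubMulAction H (Z × W)) P)))
    (omap_eq (Z' := (⊤ : SubMulAction H (Z × W))) (MonoidHom.id _)
      (fun z u => ⟨(z, σ z u), trivial⟩) (fun u => u)
      fun h x => Prod.ext (Subtype.ext (Prod.ext rfl (hσ h x))) rfl)
    (thom_eq ⊤)

/-- an invariant subspace -/
def Sb (H Y : Type) [Group H] [MulAction H Y] (O : Y → Prop)
    (_ : ∀ (g : H) x, O x → O (g • x)) : Type := Subtype O

instance (O : Z → Prop) (hO : ∀ (g : H) x, O x → O (g • x)) : TopologicalSpace (Sb H Z O hO) :=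
  instTopologicalSpaceSubtype

instance (O : Z → Prop) (hO : ∀ (g : H) x, O x → O (g • x)) : MulAction H (Sb H Z O hO) where
  smul g x := ⟨g • x.1, hO g _ x.2⟩
  one_smul _ := Subtype.ext (one_smul _ _)
  mul_smul _ _ _ := Subtype.ext (mul_smul _ _ _)

theorem sub_hs (O : Z → Prop) (hO : ∀ (g : H) x, O x → O (g • x)) :
    sub (hs H Z) O hO = hs H (Sb H Z O hO) := rfl

end general

instance instFin (n : Dim) : Fintype n.Ind := n.fin

/-- the light space of a space with an action of a product of general linear groups -/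
def hg (n : Dim) (Z : Type) [TopologicalSpace Z] [MulAction (P291Z.GG n.dm) Z] : SG n :=
  hs (P291Z.GG n.dm) Z

/-- the light representation of a product of general linear groups -/
def hw (n : Dim) (W : Type) [TopologicalSpace W] [AddCommGroup W] [Module ℂ W]
    [DistribMulAction (P291Z.GG n.dm) W] : VS (GG n) :=
  hr (P291Z.GG n.dm) W

/-- the light bundle for a product of general linear groups -/
def hbG (n : Dim) {Z W : Type} [TopologicalSpace Z] [MulAction (P291Z.GG n.dm) Z]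
    [TopologicalSpace W] [AddCommGroup W] [Module ℂ W] [DistribMulAction (P291Z.GG n.dm) W]
    (V : SubMulAction (P291Z.GG n.dm) (Z × W)) : VB (GG n) :=
  hb (H := P291Z.GG n.dm) V

variable {n n' : Dim} {Z Z' W : Type} [TopologicalSpace Z] [MulAction (P291Z.GG n.dm) Z]

theorem EE_hg (M : ℕ) : EE n M = hg n (P291Z.EE n.dm M) := rfl

theorem pt_hg : pt (GG n) = hg n Unit := rfl

theorem Bo_hg (M : ℕ) : Bo (hg n Z) M = TopCat.of (P291Z.Bo n.dm Z M) := rfl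

theorem Mat_hw (m : n.Ind → ℕ) : Mat n m = hw n (P291Z.Mat n.dm m) := rfl

theorem inc_eq (M : ℕ) : inc (hg n Z) M = P291Z.inc n.dm Z M :=
  omap_eq (MonoidHom.id _) (fun z _ => z) (P291Z.addCol M)
    fun g x => Prod.ext rfl (P291Z.addCol_smul M g x.2)

/-- the raw family of a family of classes -/
def fns (b : ∀ M, BM (P291Z.Bo n.dm Z M)) : BG (hg n Z) := fun M => fn (X := Bo (hg n Z) M) (b M)

theorem fns_injective : Injective (fns : _ → BG (hg n Z)) := fun b b' h =>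
  funext fun M => fn_injective (X := Bo (hg n Z) M) (congrFun h M)

theorem fns_inj {b b' : ∀ M, BM (P291Z.Bo n.dm Z M)} : fns b = fns b' ↔ b = b' :=
  fns_injective.eq_iff

theorem fns_lc (r : ℂ) (b b' : ∀ M, BM (P291Z.Bo n.dm Z M)) :
    fns (r • b + b') = fun M a => r * fns b M a + fns b' M a :=
  funext fun M => fn_lc (X := Bo (hg n Z) M) r (b M) (b' M)

theorem fns_eq_zero {b : ∀ M, BM (P291Z.Bo n.dm Z M)} : (∀ M a, fns b M a = 0) ↔ b = 0 :=
  ⟨fun h => funext fun M => (fn_eq_zero (X := Bo (hg n Z) M)).1 (h M),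
    fun h M => (fn_eq_zero (X := Bo (hg n Z) M)).2 (congrFun h M)⟩

theorem allBM_fns (b : ∀ M, BM (P291Z.Bo n.dm Z M)) : AllBM (hg n Z) (fns b) :=
  fun M => isBM_fn (X := Bo (hg n Z) M) (b M)

theorem AllBM.exists {β : BG (hg n Z)} (h : AllBM (hg n Z) β) :
    ∃ b : ∀ M, BM (P291Z.Bo n.dm Z M), β = fns b := by
  choose b hb using fun M => (h M).exists
  exact ⟨b, funext hb⟩

theorem isFam_fns {k : ℤ} {b : ∀ M, BM (P291Z.Bo n.dm Z M)} :
    IsFam (hg n Z) k (fns b) ↔ P291Z.IsFam k b := by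
  refine (and_iff_right (allBM_fns b)).trans (forall_congr' fun M => and_comm.trans
    (and_congr ?_ (bdeg_fn (X := Bo (hg n Z) M))))
  have e := euler_eq (H := P291Z.GG n.dm) (Z := Z) (P := P291Z.EE n.dm (M + 1))
    (W := P291Z.Mat n.dm fun _ => 1) (fun _ u => P291Z.lastCol M u) fun _ _ => rfl
  refine Iff.trans ?_ (gys_fn (X := Bo (hg n Z) M) (Y := Bo (hg n Z) (M + 1)))
  exact iff_of_eq (congrArg₂ (fun i t => Gys i t (fns b (M + 1)) (fns b M)) (inc_eq M) e)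

theorem IsFam.exists {k : ℤ} {β : BG (hg n Z)} (h : IsFam (hg n Z) k β) :
    ∃ b : ∀ M, BM (P291Z.Bo n.dm Z M), P291Z.IsFam k b ∧ β = fns b := by
  obtain ⟨b, rfl⟩ := h.1.exists
  exact ⟨b, isFam_fns.1 h, rfl⟩

theorem fund_unique {J : Type} [Fintype J] {m : J → ℕ} {b : ∀ M, BM (P291Z.Bo m Unit M)}
    (h : P291Z.IsFam 0 b) (h' : ∀ M, (∀ j, m j ≤ M) → ev (b M) (P291Z.euler
      (fun _ => (0 : P291Z.Mat m fun j => M - m j)) fun g _ => (smul_zero g).symm) = 1) :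
    b = P291Z.fund m := by
  let z : P291Z.EH (P291Z.GG m) Unit := P291Z.EH.mk b (P291Z.isFam_iff.1 h)
  have hz : z ∈ P291Z.EH.deg (P291Z.GG m) Unit 0 := P291Z.isFam_iff.1 h
  have h0 : P291Z.resT z ≠ 0 := fun e => by
    have h1 := h' _ P291Z.TS.le_sum
    rw [show b _ = 0 from congrArg (fun z : P291Z.EH (P291Z.GG m) Unit => z.1 _)
      (P291Z.resT_injective (e.trans (map_zero _).symm)), P291Z.ev_zero] at h1
    exact zero_ne_one h1
  obtain ⟨c, -, e⟩ := P291Z.TS.exists_C_gamT (P291Z.resT_deg hz) h0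
  obtain ⟨c', hc', e'⟩ := P291Z.TS.exists_C_gamT (P291Z.fundT_deg m) (P291Z.fundT_ne_zero m)
  have e₁ : z = (c / c') • P291Z.fundE m := P291Z.resT_injective (by
    rw [map_smul, ← e]
    change _ = (c / c') • P291Z.fundT m
    rw [← e', smul_smul, div_mul_cancel₀ _ hc'])
  have e₂ : b = (c / c') • P291Z.fund m := congrArg Subtype.val e₁
  have h1 := h' _ P291Z.TS.le_sum
  rw [e₂, Pi.smul_apply, P291Z.ev_eq, LinearMap.smul_apply, ← P291Z.ev_eq,
    P291Z.fund_norm m _ P291Z.TS.le_sum, smul_eq_mul, mul_one] at h1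
  rw [e₂, h1, one_smul]

theorem fund_eq (n : Dim) : fund n = fns (P291Z.fund n.dm) := by
  have e : ∀ M, euler (pt (GG n)) (Mat n fun j => M - n.dm j) (EE n M) (fun _ _ => TV.zero _) =
      raw (X := Bo (hg n Unit) M) (P291Z.euler (H := P291Z.GG n.dm) (Z := Unit)
        (P := P291Z.EE n.dm M)
        (fun _ => (0 : P291Z.Mat n.dm fun j => M - n.dm j)) fun g _ => (smul_zero g).symm) :=
    fun M => euler_eq (H := P291Z.GG n.dm) (Z := Unit) (P := P291Z.EE n.dm M)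
      (W := P291Z.Mat n.dm fun j => M - n.dm j) (fun _ _ => 0) fun g _ => (smul_zero g).symm
  obtain ⟨h₁, h₂⟩ := Classical.epsilon_spec (p := fun β : BG (pt (GG n)) => IsFam _ 0 β ∧
    ∀ M, (∀ j, n.dm j ≤ M) →
      β M (euler _ (Mat n fun j => M - n.dm j) (EE n M) fun _ _ => TV.zero _) = 1)
    ⟨fns (P291Z.fund n.dm), isFam_fns.2 P291Z.fund_isFam, fun M hM =>
      (congrArg (fns (P291Z.fund n.dm) M) (e M)).trans
        ((fn_raw (X := Bo (hg n Unit) M) _ _).trans (P291Z.fund_norm n.dm M hM))⟩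
  obtain ⟨b, hb, e'⟩ := IsFam.exists (Z := Unit) h₁
  refine e'.trans (congrArg fns (fund_unique hb fun M hM => ?_))
  exact (fn_raw (X := Bo (hg n Unit) M) _ _).symm.trans
    ((congrArg (fns b M) (e M)).symm.trans ((congrFun (congrFun e' M) _).symm.trans (h₂ M hM)))

section same

variable [TopologicalSpace Z'] [MulAction (P291Z.GG n.dm) Z']

theorem bmap_eq (f : Z → Z') (hf : ∀ (g : P291Z.GG n.dm) z, f (g • z) = g • f z) (M : ℕ) :
    bmap (hg n Z) (hg n Z') f M = P291Z.bmap f hf M :=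
  omap_eq (P := P291Z.EE n.dm M) (MonoidHom.id _) (fun z _ => f z) (fun u => u)
    fun g x => Prod.ext (hf g x.1) rfl

theorem toPt_eq (M : ℕ) : bmap (hg n Z) (pt _) (fun _ => ()) M = P291Z.Flav.toPt n.dm Z M :=
  bmap_eq (Z' := Unit) (fun _ => ()) (fun _ _ => rfl) M

theorem pushG_fns {f : Z → Z'} (hf : ∀ (g : P291Z.GG n.dm) z, f (g • z) = g • f z)
    {b : ∀ M, BM (P291Z.Bo n.dm Z M)} {b' : ∀ M, BM (P291Z.Bo n.dm Z' M)} :
    PushG (hg n Z) (hg n Z') f (fns b) (fns b') ↔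
      ∀ M, P291Z.Push (P291Z.bmap f hf M) (b M) (b' M) :=
  forall_congr' fun M => (iff_of_eq (congrArg (fun i => Push i (fns b M) (fns b' M))
    (bmap_eq f hf M))).trans (push_fn (X := Bo (hg n Z) M) (Y := Bo (hg n Z') M))

variable [TopologicalSpace W] [AddCommGroup W] [Module ℂ W] [DistribMulAction (P291Z.GG n.dm) W]

theorem gysG_fns {f : Z → Z'} (hf : ∀ (g : P291Z.GG n.dm) z, f (g • z) = g • f z) {σ : Z' → W}
    (hσ : ∀ (g : P291Z.GG n.dm) z, σ (g • z) = g • σ z)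
    {b' : ∀ M, BM (P291Z.Bo n.dm Z' M)} {b : ∀ M, BM (P291Z.Bo n.dm Z M)} :
    GysG (hg n Z) (hg n Z') f (hw n W) σ (fns b') (fns b) ↔
      ∀ M, P291Z.Gys (P291Z.bmap f hf M) (P291Z.euler (fun x : Z' × P291Z.EE n.dm M => σ x.1)
        fun g x => hσ g x.1) (b' M) (b M) :=
  forall_congr' fun M => (iff_of_eq (congrArg₂ (fun i t => Gys i t (fns b' M) (fns b M))
    (bmap_eq f hf M) (euler_eq (P := P291Z.EE n.dm M) (fun z _ => σ z) fun g x => hσ g x.1))).trans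
      (gys_fn (X := Bo (hg n Z) M) (Y := Bo (hg n Z') M))

theorem zsec_eq (V : SubMulAction (P291Z.GG n.dm) (Z × W)) (h0 : ∀ z, (z, 0) ∈ V) (M : ℕ) :
    bmap (hg n Z) (hg n V) (fun z => ⟨(z, 0), h0 z⟩) M = P291Z.zsec V h0 (P291Z.EE n.dm M) :=
  bmap_eq (Z' := V) (fun z => ⟨(z, 0), h0 z⟩)
    (fun g _ => Subtype.ext (Prod.ext rfl (smul_zero g).symm)) M

theorem pullG_fns (V : SubMulAction (P291Z.GG n.dm) (Z × W)) (h0 : ∀ z, (z, 0) ∈ V)
    (O : V → Prop) (hO : ∀ (g : P291Z.GG n.dm) x, O x → O (g • x))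
    {b : ∀ M, BM (P291Z.Bo n.dm Z M)} {c : ∀ M, BM (P291Z.Bo n.dm (Sb _ V O hO) M)} :
    PullG (hbG n V) O hO (fns b) (fns c) ↔ ∀ M, ∃ β',
      P291Z.Gys (P291Z.zsec V h0 _) (P291Z.thom V _) β' (b M) ∧
      P291Z.Res (P291Z.bmap (fun x : Sb _ V O hO => x.1) (fun _ _ => rfl) M) β' (c M) := by
  have key : ∀ (β' : ∀ M, BM (P291Z.Bo n.dm V M)) M,
      (Gys (bmap (hg n Z) (hg n V) (fun z => ⟨(z, 0), h0 z⟩) M) (thom (hbG n V) (EE n M))
        (fns β' M) (fns b M) ∧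
      Res (bmap (hg n (Sb _ V O hO)) (hg n V) (fun x => x.1) M) (fns β' M) (fns c M)) ↔
      (P291Z.Gys (P291Z.zsec V h0 _) (P291Z.thom V _) (β' M) (b M) ∧
      P291Z.Res (P291Z.bmap (fun x : Sb _ V O hO => x.1) (fun _ _ => rfl) M) (β' M) (c M)) :=
    fun β' M => and_congr
      ((iff_of_eq (congrArg₂ (fun i t => Gys i t (fns β' M) (fns b M)) (zsec_eq V h0 M)
        (thom_eq (P := P291Z.EE n.dm M) V))).trans
        (gys_fn (X := Bo (hg n Z) M) (Y := Bo (hg n V) M)))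
      ((iff_of_eq (congrArg (fun i => Res i (fns β' M) (fns c M))
        (bmap_eq (fun x : Sb _ V O hO => x.1) (fun _ _ => rfl) M))).trans
        (res_fn (X := Bo (hg n (Sb _ V O hO)) M) (Y := Bo (hg n V) M)))
  refine ⟨fun ⟨_, _, β', h₁, h₂⟩ M => ?_, fun h => ?_⟩
  · obtain ⟨β', rfl⟩ := AllBM.exists (Z := V) h₁
    exact ⟨β' M, (key β' M).1 (h₂ M)⟩
  · choose β' h using h
    exact ⟨allBM_fns c, h0, fns β', allBM_fns β', fun M => (key β' M).2 (h M)⟩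

theorem PullG.allBM {E : VB (GG n)} {O hO β γ} (h : PullG E O hO β γ) : AllBM _ γ := h.1

end same

variable [TopologicalSpace Z'] [MulAction (P291Z.GG n'.dm) Z']

instance : MulAction (P291Z.GG (n.join n').dm) (P291Z.Pr n.dm n'.dm Z Z') :=
  inferInstanceAs (MulAction (P291Z.GG (Sum.elim n.dm n'.dm)) _)

theorem Pr_hg : Pr (hg n Z) (hg n' Z') = hg (n.join n') (P291Z.Pr n.dm n'.dm Z Z') := rfl

theorem crossG_fns {b₁ : ∀ M, BM (P291Z.Bo n.dm Z M)} {b₂ : ∀ M, BM (P291Z.Bo n'.dm Z' M)}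
    {b : ∀ M, BM (P291Z.Bo (n.join n').dm (P291Z.Pr n.dm n'.dm Z Z') M)} :
    CrossG (hg n Z) (hg n' Z') (fns b₁) (fns b₂) (fns b) ↔
      ∀ M, P291Z.CrossG (b₁ M) (b₂ M) (b M) := by
  refine (and_iff_right (allBM_fns b)).trans (forall_congr' fun M => Iff.trans ?_
    (cross_fn (X := Bo (Pr (hg n Z) (hg n' Z')) M) (X₁ := Bo (hg n Z) M) (X₂ := Bo (hg n' Z') M)))
  exact iff_of_eq (congrArg₂ (fun p q => Cross p q _ _ _)
    (omap_eq (Z := P291Z.Pr n.dm n'.dm Z Z') (P := P291Z.EE (Sum.elim n.dm n'.dm) M)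
      (P291Z.fstG n.dm n'.dm) (fun x _ => x.1) P291Z.fstE fun _ _ => rfl)
    (omap_eq (Z := P291Z.Pr n.dm n'.dm Z Z') (P := P291Z.EE (Sum.elim n.dm n'.dm) M)
      (P291Z.sndG n.dm n'.dm) (fun x _ => x.2) P291Z.sndE fun _ _ => rfl))

section frames

open P291Z.Flav

variable {I E Φ : Type} [Fintype I] [Fintype E] [Fintype Φ]

/-- the dimensions of `G × F` -/
abbrev dQ (Q : P291Z.Quiv I E) (Φ : Type) [Fintype Φ] : Dim := ⟨I ⊕ Φ, inferInstance, Q.nn Φ⟩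

variable {Q : P291Z.Quiv I E} {Y Y' : Type} [TopologicalSpace Y] [TopologicalSpace Y']
  [MulAction (P291Z.GG (Q.nn Φ)) Y] [MulAction (P291Z.GG (Q.nn Φ)) Y'] (ℓ : Y → Q.Lat)
  (hℓ : ∀ (g : P291Z.GG (Q.nn Φ)) z, ℓ (g • z) = g • ℓ z) (m : ℕ)

theorem inv_VO (h : P291Z.GG (Sum.elim (Q.nn Φ) (Q.nn Φ))) (x : VV ℓ hℓ Y' m)
    (hx : P291Z.Quiv.lat (P291Z.Quiv.laur x.1.2.1) = ℓ x.1.1.1 ∧ ∀ a, x.1.2.2 a ≠ 0) :
    P291Z.Quiv.lat (P291Z.Quiv.laur (h • x).1.2.1) = ℓ (h • x).1.1.1 ∧ ∀ a, (h • x).1.2.2 a ≠ 0 :=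
  (h • (show VO ℓ hℓ Y' m from ⟨x, hx⟩)).2

/-- the dimensions of `(G × F) × (G × F)` -/
abbrev dQ₂ (Q : P291Z.Quiv I E) (Φ : Type) [Fintype Φ] : Dim :=
  ⟨(I ⊕ Φ) ⊕ (I ⊕ Φ), inferInstance, Sum.elim (Q.nn Φ) (Q.nn Φ)⟩

theorem dQ₂_eq : dQ₂ Q Φ = (dQ Q Φ).join (dQ Q Φ) := rfl

theorem pullV_fns {b₁ : ∀ M, BM (P291Z.Bo (Q.nn Φ) Y M)} {b₂ : ∀ M, BM (P291Z.Bo (Q.nn Φ) Y' M)}
    {c : ∀ M, BM (P291Z.Bo (Sum.elim (Q.nn Φ) (Q.nn Φ)) (VO ℓ hℓ Y' m) M)} :
    (∃ b, CrossG (hg (dQ Q Φ) Y) (hg (dQ Q Φ) Y') (fns b₁) (fns b₂) b ∧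
      PullG (hbG (dQ₂ Q Φ) (VV ℓ hℓ Y' m)) _ (inv_VO ℓ hℓ m) b
        (fns (n := dQ₂ Q Φ) (Z := VO ℓ hℓ Y' m) c)) ↔
    ∀ M, ∃ b, P291Z.CrossG (b₁ M) (b₂ M) b ∧ PullV ℓ hℓ b (c M) := by
  refine ⟨fun ⟨b, h₁, h₂⟩ M => ?_, fun h => ?_⟩
  · obtain ⟨b, rfl⟩ := AllBM.exists (n := dQ₂ Q Φ) (Z := P291Z.Pr (Q.nn Φ) (Q.nn Φ) Y Y') h₁.1
    exact ⟨b M, (crossG_fns (n := dQ Q Φ) (n' := dQ Q Φ)).1 h₁ M,
      (pullG_fns (n := dQ₂ Q Φ) (VV ℓ hℓ Y' m)
        (fun _ => lat_laur_zero_le _) _ (inv_VO ℓ hℓ m)).1 h₂ M⟩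
  · choose b h₁ h₂ using h
    exact ⟨fns (n := dQ₂ Q Φ) (Z := P291Z.Pr (Q.nn Φ) (Q.nn Φ) Y Y') b,
      (crossG_fns (n := dQ Q Φ) (n' := dQ Q Φ)).2 h₁, (pullG_fns (n := dQ₂ Q Φ) (VV ℓ hℓ Y' m)
        (fun _ => lat_laur_zero_le _) _ (inv_VO ℓ hℓ m)).2 h₂⟩

end frames

end Vale.Agent.P291Y

end
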