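import Vale.Agent.P291Y.B2
import Vale.Agent.P291Z.HigP0
import Vale.Agent.P291Z.GLSys

set_option linter.all false

/-!
# Dictionary for equivariant cohomology
-/

noncomputable section

namespace Vale.Agent.P291Y

open Set Function Topology
open P291Z (Coch δ H hcls HG HGdeg HS)

section one

variable {X Y : TopCat.{0}}

open Classical in
/-- the class of a raw cochain -/
def rc (a : C X) : H X := if h : IsCo a then hcls (hv a h) else 0

theorem rc_raw (a : Coch X) : rc (raw a) = hcls a := dif_pos a.2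

theorem Closed.exists {a : C X} (h : Closed a) :
    ∃ a' : Coch X, P291Z.supp (δ a') = ∅ ∧ a = raw a' := ⟨hv a h.1, h.2, rfl⟩

theorem coh_iff {a b : C X} (ha : Closed a) (hb : Closed b) : Coh a b ↔ rc a = rc b := by
  obtain ⟨a, ha', rfl⟩ := ha.exists
  obtain ⟨b, hb', rfl⟩ := hb.exists
  rw [rc_raw, rc_raw, P291Z.hcls_eq_iff ha' hb']
  exact ⟨fun ⟨c, hc, _, h⟩ => ⟨hv c hc, h⟩, fun ⟨c, h⟩ => ⟨raw c, c.2, trivial, h⟩⟩

theorem closed_zero : Closed (X := X) fun _ => 0 := closed_raw.2 P291Z.cocycle_zero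

theorem rc_zero : rc (X := X) (fun _ => 0) = 0 := (rc_raw 0).trans P291Z.hcls_zero

theorem rc_cup {a b : C X} (ha : Closed a) (hb : Closed b) : rc (cup a b) = rc a * rc b := by
  obtain ⟨a, ha', rfl⟩ := ha.exists
  obtain ⟨b, hb', rfl⟩ := hb.exists
  rw [rc_raw, rc_raw, ← P291Z.hcls_mul ha' hb']
  exact rc_raw (a * b)

theorem rc_lin (z : ℂ) {a b : C X} (ha : Closed a) (hb : Closed b) :
    rc (lin z a b) = z • rc a + rc b := by
  obtain ⟨a, ha', rfl⟩ := ha.exists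
  obtain ⟨b, hb', rfl⟩ := hb.exists
  rw [rc_raw, rc_raw, ← P291Z.hcls_smul z ha', ← P291Z.hcls_add (P291Z.cocycle_smul z ha') hb']
  exact rc_raw (z • a + b)

theorem Closed.pull {a : C Y} (ha : Closed a) (f : C(X, Y)) : Closed (pull f a) := by
  obtain ⟨a, ha', rfl⟩ := ha.exists
  exact closed_raw.2 (P291Z.cocycle_pull f.continuous ha')

theorem rc_pull {a : C Y} (ha : Closed a) (f : C(X, Y)) : rc (pull f a) = H.map f (rc a) := by
  obtain ⟨a, ha', rfl⟩ := ha.exists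
  rw [rc_raw, H.map_hcls f ha']
  exact rc_raw (P291Z.pull f a)

theorem rc_deg {a : C X} (ha : Closed a) {k : ℤ} (h : IsDeg k a) : H.IsDeg k (rc a) := by
  obtain ⟨a, ha', rfl⟩ := ha.exists
  rw [rc_raw]
  exact P291Z.hcls_isDeg h

theorem exists_rc {k : ℤ} {x : H X} (h : H.IsDeg k x) : ∃ a, Closed a ∧ IsDeg k a ∧ rc a = x := by
  obtain ⟨a, ha, h', rfl⟩ := H.isDeg_iff.1 h
  exact ⟨raw a, closed_raw.2 ha, h', rc_raw a⟩

theorem coh_pull_iff {X₁ X₂ : TopCat.{0}} (f : C(X, X₁)) (g : C(X, X₂)) {a : C X₁} {b : C X₂}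
    (ha : Closed a) (hb : Closed b) :
    Coh (pull f a) (pull g b) ↔ H.map f (rc a) = H.map g (rc b) := by
  rw [coh_iff (ha.pull f) (hb.pull g), rc_pull ha, rc_pull hb]

end one

variable {n : Dim} {Z : Type} [TopologicalSpace Z] [MulAction (P291Z.GG n.dm) Z] {k : ℤ}

/-- the classes of a family of raw cochains -/
def fc (c : CG (hg n Z)) : ∀ M, H (P291Z.Bo n.dm Z M) := fun M => rc (X := Bo (hg n Z) M) (c M)

theorem coh_inc_iff {c : CG (hg n Z)} {M : ℕ} (h : Closed (c M)) (h' : Closed (c (M + 1))) :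
    Coh (pull (inc (hg n Z) M) (c (M + 1))) (c M) ↔
      H.map (P291Z.inc n.dm Z M) (fc c (M + 1)) = fc c M := by
  rw [inc_eq]
  exact (coh_iff (h'.pull (X := Bo (hg n Z) M) (P291Z.inc n.dm Z M)) h).trans
    (rc_pull (X := Bo (hg n Z) M) h' (P291Z.inc n.dm Z M)).congr_left

theorem IsHG.deg {c : CG (hg n Z)} (h : IsHG (hg n Z) k c) : fc c ∈ HGdeg n.dm Z k := fun M =>
  ⟨(coh_inc_iff (h M).1 (h (M + 1)).1).1 (h M).2.2, rc_deg (h M).1 (h M).2.1⟩

theorem exists_fc {x : ∀ M, H (P291Z.Bo n.dm Z M)} (h : x ∈ HGdeg n.dm Z k) :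
    ∃ c, IsHG (hg n Z) k c ∧ fc c = x := by
  choose c h1 h2 h3 using fun M => exists_rc (X := Bo (hg n Z) M) (h M).2
  have e : fc (Z := Z) c = x := funext h3
  exact ⟨c, fun M => ⟨h1 M, h2 M, (coh_inc_iff (h1 M) (h1 (M + 1))).2 (e ▸ (h M).1)⟩, e⟩

theorem mem_HG {x : ∀ M, H (P291Z.Bo n.dm Z M)} (h : x ∈ HGdeg n.dm Z k) : x ∈ HG n.dm Z :=
  Subring.subset_closure (mem_iUnion.2 ⟨k, h⟩)

open Classical in
/-- the equivariant class of a family of raw cochains -/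
def hc (c : CG (hg n Z)) : HG n.dm Z := if h : fc c ∈ HG n.dm Z then ⟨fc c, h⟩ else 0

theorem hc_eq {c : CG (hg n Z)} {x : HG n.dm Z} (h : fc c = x.1) : hc c = x :=
  (dif_pos (h ▸ x.2)).trans (Subtype.ext h)

theorem IsHG.hc_val {c : CG (hg n Z)} (h : IsHG (hg n Z) k c) : (hc c).1 = fc c :=
  congrArg Subtype.val (hc_eq (x := ⟨_, mem_HG h.deg⟩) rfl)

theorem IsHG.hc_deg {c : CG (hg n Z)} (h : IsHG (hg n Z) k c) : (hc c).1 ∈ HGdeg n.dm Z k :=
  h.hc_val ▸ h.deg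

theorem exists_hc {x : HG n.dm Z} (h : x.1 ∈ HGdeg n.dm Z k) :
    ∃ c, IsHG (hg n Z) k c ∧ hc c = x :=
  (exists_fc h).imp fun _ h => ⟨h.1, hc_eq h.2⟩

variable (n Z) in
/-- the scalars -/
def sc (z : ℂ) : HG n.dm Z := ⟨fun _ => z • 1, mem_HG (k := 0) fun M =>
  ⟨(H.map_smulC _ _ _).trans (congrArg (z • ·) (map_one _)), (H.deg _ 0).smul_mem z H.isDeg_one⟩⟩

/-- the homogeneous components -/
def cmp (k : ℤ) : HG n.dm Z →+ HG n.dm Z := HS.cmp (G := P291Z.GG n.dm) (X := Z) k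

theorem cmp_deg (k : ℤ) (x : HG n.dm Z) : (cmp k x).1 ∈ HGdeg n.dm Z k :=
  HS.comp_deg (G := P291Z.GG n.dm) (X := Z) k x

theorem cmp_eq {x : HG n.dm Z} (h : x.1 ∈ HGdeg n.dm Z k) : cmp k x = x :=
  Subtype.ext (funext fun M => (h M).2.comp_eq)

theorem cmp_ne {x : HG n.dm Z} (h : x.1 ∈ HGdeg n.dm Z k) {j : ℤ} (hj : j ≠ k) : cmp j x = 0 :=
  Subtype.ext (funext fun M => (h M).2.comp_ne hj)

theorem HG_induction {P : HG n.dm Z → Prop} (c : HG n.dm Z) (h0 : P 0)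
    (hadd : ∀ a b, P a → P b → P (a + b)) (h : ∀ k, ∀ a : HG n.dm Z, a.1 ∈ HGdeg n.dm Z k → P a) :
    P c := HS.induction_on (G := P291Z.GG n.dm) (X := Z) (P := P) c h0 hadd h

theorem exists_sum_cmp (x : HG n.dm Z) : ∃ s : Finset ℤ, ∀ t, s ⊆ t → ∑ k ∈ t, cmp k x = x := by
  refine HG_induction (P := fun x => ∃ s : Finset ℤ, ∀ t, s ⊆ t → ∑ k ∈ t, cmp k x = x) x
    ⟨∅, fun t _ => Finset.sum_eq_zero fun k _ => map_zero _⟩ ?_ fun k a ha => ⟨{k}, fun t ht => ?_⟩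
  · rintro a b ⟨s, hs⟩ ⟨s', hs'⟩
    refine ⟨s ∪ s', fun t ht => ?_⟩
    simp only [map_add, Finset.sum_add_distrib, hs t (Finset.subset_union_left.trans ht),
      hs' t (Finset.subset_union_right.trans ht)]
  · rw [Finset.sum_eq_single_of_mem k (ht (Finset.mem_singleton_self k)) fun j _ hj => cmp_ne ha hj,
      cmp_eq ha]

theorem sc_mul (z : ℂ) (x : HG n.dm Z) (M : ℕ) : (sc n Z z * x).1 M = z • x.1 M :=
  (smul_mul_assoc z 1 (x.1 M)).trans (congrArg (z • ·) (one_mul _))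

theorem map_lin_aux {R S : Type} [Ring R] [CommRing S] [Algebra ℂ S] (e : R ≃+* S) {a : R} {z : ℂ}
    (h : e a = z • 1) (x y : R) : e (a * x + y) = z • e x + e y := by
  rw [map_add, map_mul, h, smul_mul_assoc, one_mul]

theorem isCoh_of {S : Type} [CommRing S] [Algebra ℂ S] (e : HG n.dm Z ≃+* S)
    (he : ∀ z, e (sc n Z z) = z • 1) : IsCoh (hg n Z) S fun c => e (hc c) := by
  refine ⟨fun y => ?_, fun s c h => ?_, fun k k' c c' h h' => ⟨?_, fun z _ => ?_⟩⟩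
  · obtain ⟨x, rfl⟩ := e.surjective y
    obtain ⟨s, hs⟩ := exists_sum_cmp x
    choose c h1 h2 using fun k => exists_hc (cmp_deg k x)
    exact ⟨s, c, h1, by simp only [h2, ← map_sum, hs s subset_rfl]⟩
  · have h0 : ∀ k, hc (c k) = 0 ↔ ∀ M, Coh (c k M) fun _ => 0 := fun k => by
      rw [Subtype.ext_iff, (h k).hc_val, funext_iff]
      exact forall_congr' fun M => ((coh_iff (h k M).1 closed_zero).trans (by rw [rc_zero]; rfl)).symm
    simp only [← map_sum, EmbeddingLike.map_eq_zero_iff, ← h0]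
    refine ⟨fun e j hj => ?_, Finset.sum_eq_zero⟩
    have := congrArg (cmp j) e
    rwa [map_sum, map_zero, Finset.sum_eq_single_of_mem j hj
      fun k _ hk => cmp_ne (h k).hc_deg hk.symm, cmp_eq (h j).hc_deg] at this
  · rw [← map_mul]
    refine congrArg e (hc_eq (funext fun M => (rc_cup (h M).1 (h' M).1).trans ?_))
    rw [Subring.coe_mul, h.hc_val, h'.hc_val]
    rfl
  · have e1 : hc (Z := Z) (fun M => lin z (c M) (c' M)) = sc n Z z * hc c + hc c' :=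
      hc_eq (funext fun M => (rc_lin z (h M).1 (h' M).1).trans (congrArg₂ (· + ·)
        ((sc_mul z (hc c) M).trans (congrArg (fun y : ∀ M, H (P291Z.Bo n.dm Z M) => z • y M)
          h.hc_val)).symm (congrFun h'.hc_val M).symm))
    exact (congrArg e e1).trans (map_lin_aux e (he z) _ _)

end Vale.Agent.P291Y

end
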