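import Vale.Agent.P291Y.L2b
import Vale.Agent.P291Y.B2
import Vale.Agent.P291Z.T7

set_option linter.all false

/-!
# Dictionary for the quiver variety, regularity and the Kirwan map
-/

noncomputable section

namespace Vale.Agent.P291Y

open Set Function
open P291Z (Coch Zs H)

attribute [local instance] Qv.fV Qv.fA Dat.fF

section coh

variable {X Y Y' : TopCat.{0}}

theorem coh_raw {a b : Zs X} : Coh (raw a.1) (raw b.1) ↔ H.mk a = H.mk b :=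
  (cohom_raw.trans (exists_congr fun _ => and_iff_right trivial)).trans H.mk_eq_iff.symm

theorem coh_pull (f : C(X, Y)) (g : C(X, Y')) {a : Zs Y} {b : Zs Y'} :
    Coh (pull f (raw a.1)) (pull g (raw b.1)) ↔ H.map f (H.mk a) = H.map g (H.mk b) :=
  coh_raw (a := Zs.map f a) (b := Zs.map g b)

theorem coh_pull' (f : C(X, Y)) (g : C(X, Y')) {f' : X → Y} {g' : X → Y'} (hf : f' = f)
    (hg : g' = g) {a : C Y} {b : C Y'} {x : H Y} {y : H Y'}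
    (ha : ∃ t : Zs Y, raw t.1 = a ∧ H.mk t = x) (hb : ∃ t : Zs Y', raw t.1 = b ∧ H.mk t = y) :
    Coh (pull f' a) (pull g' b) ↔ H.map f x = H.map g y := by
  obtain ⟨t, rfl, rfl⟩ := ha
  obtain ⟨u, rfl, rfl⟩ := hb
  subst hf hg
  exact coh_pull f g

end coh

section quiver

variable {I E Φ : Type} [Fintype I] [Fintype E] [Fintype Φ] {Q : P291Z.Quiv I E}
  (A : P291Z.Flav Q Φ) (ν : I → ℤ)

/-- the dimensions of the flavour torus -/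
abbrev dT (Φ : Type) [Fintype Φ] : Dim := ⟨Φ, inferInstance, fun _ => 1⟩

theorem toX_smul (g : P291Z.GG (Q.nn Φ)) (z : A.Zst ν) :
    A.toX ν (g • z) = P291Z.sndG _ _ g • A.toX ν z :=
  Quotient.sound' (s₁ := MulAction.orbitRel (P291Z.sndG Q.v fun _ : Φ => 1).ker (A.Zst ν))
    ⟨⟨g * (P291Z.inrG Q.v _ (P291Z.sndG _ _ g))⁻¹, by
      rw [MonoidHom.mem_ker, map_mul, map_inv]; exact mul_inv_cancel _⟩, by
      change (g * (P291Z.inrG Q.v _ (P291Z.sndG _ _ g))⁻¹) •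
        P291Z.inrG Q.v _ (P291Z.sndG _ _ g) • z = g • z
      rw [smul_smul, inv_mul_cancel_right]⟩

theorem toXF_eq (M : ℕ) :
    omap (hg (dQ Q Φ) (A.Zst ν)) (EE (dQ Q Φ) M) (hg (dT Φ) (A.XX ν)) (EE (dT Φ) M)
      (fun z _ => A.toX ν z) P291Z.sndE = A.toXF ν M :=
  omap_eq (Z := A.Zst ν) (P := P291Z.EE (Q.nn Φ) M) (Z' := A.XX ν)
    (P' := P291Z.EE (fun _ : Φ => 1) M) (P291Z.sndG _ _) (fun z _ => A.toX ν z) P291Z.sndE
    fun g x => Prod.ext (toX_smul A ν g x.1) rfl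

theorem kirwan_aux {r : CG (hg (dQ Q Φ) Unit)} {c : CG (hg (dT Φ) (A.XX ν))}
    {R : P291Z.Flav.RR Q Φ} {C : A.HX ν}
    (hr : ∀ M, ∃ t : Zs (Bo (hg (dQ Q Φ) Unit) M), raw t.1 = r M ∧ H.mk t = R.1 M)
    (hc : ∀ M, ∃ t : Zs (Bo (hg (dT Φ) (A.XX ν)) M), raw t.1 = c M ∧ H.mk t = C.1 M) :
    (∀ M, Coh (pull (X := Bo (hg (dQ Q Φ) (A.Zst ν)) M) (Y := Bo (hg (dT Φ) (A.XX ν)) M)
      (omap (hg (dQ Q Φ) (A.Zst ν)) (EE (dQ Q Φ) M) (hg (dT Φ) (A.XX ν)) (EE (dT Φ) M)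
        (fun z _ => A.toX ν z) P291Z.sndE) (c M))
      (pull (bmap (hg (dQ Q Φ) (A.Zst ν)) (pt _) (fun _ => ()) M) (r M))) ↔ A.IsKirwan ν R C :=
  forall_congr' fun M => coh_pull' (X := Bo (hg (dQ Q Φ) (A.Zst ν)) M)
    (Y := Bo (hg (dT Φ) (A.XX ν)) M) (Y' := Bo (hg (dQ Q Φ) Unit) M)
    (A.toXF ν M) (P291Z.Flav.toPt (Q.nn Φ) (A.Zst ν) M) (toXF_eq A ν M)
    (toPt_eq (n := dQ Q Φ) (Z := A.Zst ν) M) (hc M) (hr M)

end quiver

namespace Dat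

variable (D : Dat)

/-- the dimensions of `G × F` -/
abbrev dG : Dim := dQ D.qv.toH D.Fl

/-- the dimensions of `F` -/
abbrev dF : Dim := dT D.Fl

theorem nn_eq : D.nn = D.dG := rfl

theorem nF_eq : D.nF = D.dF := rfl

theorem NN_eq : D.NN = hw D.dG D.toH.NN := rfl

theorem ND_eq : D.ND = hg D.dG D.toH.ND := rfl

theorem Zst_eq : D.Zst = hg D.dG (D.toH.Zst D.nu) := rfl

theorem XX_eq : D.XX = hg D.dF (D.toH.XX D.nu) := rfl

theorem p1_eq : D.p1 = hg D.dG Unit := rfl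

theorem regular_iff : D.Regular ↔ D.toH.Regular D.nu :=
  ⟨fun h z hz => ⟨(h z.1 z.2 hz).1, fun hs g hg e =>
      (h z.1 z.2 hz).2 hs g hg (congrArg Prod.fst e) (congrArg Prod.snd e)⟩,
    fun h x p hz => ⟨(h (x, p) hz).1, fun hs g hg e e' =>
      (h (x, p) hz).2 hs g hg (Prod.ext e e')⟩⟩

theorem kirwan_iff {r : CG D.p1} {c : CG D.XX} {R : P291Z.Flav.RR D.qv.toH D.Fl}
    {C : D.toH.HX D.nu}
    (hr : ∀ M, ∃ t : Zs (Bo D.p1 M), raw t.1 = r M ∧ H.mk t = R.1 M)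
    (hc : ∀ M, ∃ t : Zs (Bo D.XX M), raw t.1 = c M ∧ H.mk t = C.1 M) :
    D.Kirwan r c ↔ D.toH.IsKirwan D.nu R C :=
  kirwan_aux D.toH D.nu hr hc

end Dat

end Vale.Agent.P291Y

end
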