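import Vale.Agent.P291Z.Heavy

/-!
# The algebra structure on `A_F`, independence of classes, constants
-/

set_option linter.all false

namespace Vale.Agent.P291Z

open Set Function Quiv

/-- constant families -/
theorem const_mem_HGdeg {J : Type} (n : J → ℕ) (Z : Type) [TopologicalSpace Z]
    [MulAction (GG n) Z] (z : ℂ) : (fun M => z • (1 : H (Bo n Z M))) ∈ HGdeg n Z 0 := fun M =>
  ⟨(H.map_smulC _ z 1).trans (congrArg (z • ·) (map_one _)), by
    change H.IsDeg 0 (z • 1)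
    rw [← hcls_one, ← hcls_smul z (by rw [δ_one_eq_zero]; exact supp_zero)]
    exact hcls_isDeg fun l hl => (congrArg (z * ·) (isDeg_one l hl)).trans (mul_zero z)⟩

/-- constants in the equivariant cohomology ring -/
noncomputable def cstG {J : Type} (n : J → ℕ) (Z : Type) [TopologicalSpace Z]
    [MulAction (GG n) Z] (z : ℂ) : HG n Z :=
  ⟨fun M => z • 1, Subring.subset_closure (mem_iUnion.2 ⟨0, const_mem_HGdeg n Z z⟩)⟩

namespace Flav

variable {I E Φ : Type} {Q : Quiv I E} [Fintype Φ] [Fintype I] [Fintype E] {A : Flav Q Φ}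
  {n n' : ℕ} {χ χ' : I → ℤ} {k k' : ℤ} {ν : I → ℤ}

noncomputable instance algAA : Algebra ℂ A.AA :=
  Algebra.ofModule (fun c a b => LinearMap.map_smul₂ A.conv c a b)
    fun c a b => map_smul (A.conv a) c b

theorem cls_eq_zero' {β : A.An n χ k} (h : cls β = 0) : β = 0 := by
  classical
  obtain ⟨W⟩ := exists_wts A
  refine An.at_injective le_rfl (PhiG_injective W le_rfl ?_)
  rw [← PhiA_cls W le_rfl, h, map_zero, map_zero, map_zero]

theorem cls_indep {m : ℕ} (n : Fin m → ℕ) (χ : Fin m → I → ℤ) (k : Fin m → ℤ)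
    (β : ∀ j, A.An (n j) (χ j) (k j)) (h : ∀ j j', χ j = χ j' → k j = k j' → j = j')
    (h0 : ∑ j, cls (β j) = 0) (j : Fin m) : β j = 0 := by
  have h1 := congrArg (AA.prj fun χ' k' => χ' = χ j ∧ k' = k j) h0
  rw [map_sum, map_zero, Finset.sum_eq_single j (fun i _ hi => AA.prj_neg
    (fun e => hi (h _ _ e.1 e.2)) _) (fun e => absurd (Finset.mem_univ j) e),
    AA.prj_pos ⟨rfl, rfl⟩] at h1
  exact cls_eq_zero' h1

theorem span_cls_top {S : Set A.AA} (h : ∀ n χ k (β : A.An n χ k), cls β ∈ S) :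
    Submodule.span ℂ S = ⊤ :=
  eq_top_iff.2 fun a _ => AA.induction (P := fun a => a ∈ Submodule.span ℂ S) a (zero_mem _)
    (fun _ _ => add_mem) fun _ _ _ β => Submodule.subset_span (h _ _ _ β)

theorem JJ_eq_span {S : Set A.AA}
    (h : ∀ a, a ∈ S ↔ ∃ n χ k, ∃ β : A.An n χ k, ∑ i, ν i * χ i ≠ 0 ∧ a = cls β) :
    Ideal.span S = A.JJ ν := by
  refine le_antisymm (Ideal.span_le.2 fun a ha => ?_) (Ideal.span_le.2 ?_)
  · obtain ⟨n, χ, k, β, h1, rfl⟩ := (h a).1 ha
    exact Ideal.subset_span ⟨_, h1, Submodule.subset_span ⟨n, χ, k, β, rfl, rfl⟩⟩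
  · rintro a ⟨m, hm, ha⟩
    exact spP_induction (p := fun χ _ => ∑ i, ν i * χ i = m) (P := fun a => a ∈ Ideal.span S) ha
      (zero_mem _) (fun _ _ => add_mem) fun n χ k β e =>
        Ideal.subset_span ((h _).2 ⟨n, χ, k, β, e ▸ hm, rfl⟩)

theorem coefA_cstG (z : ℂ) : A.coefA (cstG _ _ z) = algebraMap ℂ A.AA z := by
  obtain ⟨β, h1, h2, -⟩ := coefA_final (A := A) 0 1 fun M => ⟨map_one _, H.isDeg_one⟩
  have h3 : CapRel (cstG _ _ z) (z • β) := fun M => by
    obtain ⟨b, h4, h5⟩ := h1 M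
    refine ⟨z • b, fun a ha => (ev_smul z b a).trans ((congrArg (z * ·) (h4 a ha)).trans
      (ev_smul z _ _).symm), Cap_iff.2 ?_⟩
    rw [← Cap_iff.1 h5]
    exact LinearMap.ext fun c => by
      change fund _ M (Hc.act (z • 1) c) = z • fund _ M (Hc.act 1 c)
      rw [map_smul, LinearMap.smul_apply, map_smul]
  rw [coefA_spec h3, cls_smul, ← h2, Algebra.algebraMap_eq_smul_one]
  rfl

theorem isKirwan_cstG (z : ℂ) : A.IsKirwan ν (cstG _ _ z) (cstG _ _ z) := fun M =>
  ((H.map_smulC _ z 1).trans (congrArg (z • ·) (map_one _))).trans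
    ((H.map_smulC _ z 1).trans (congrArg (z • ·) (map_one _))).symm

theorem phiH_spec (hν : A.Regular ν) (r : RR Q Φ) : A.IsKirwan ν r (A.phiH ν r) :=
  Classical.epsilon_spec_aux _ _ (Kir.existsUnique_isKirwan hν r).exists

theorem phiH_eq (hν : A.Regular ν) {r : RR Q Φ} {c : A.HX ν} (h : A.IsKirwan ν r c) :
    A.phiH ν r = c := (Kir.existsUnique_isKirwan hν r).unique (phiH_spec hν r) h

/-- the isomorphism takes constants to constants -/
theorem e_cstG (hν : A.Regular ν) {e : A.HX ν ≃+* A.CY ν} (he : ∀ r, e (A.phiH ν r) = A.phiC ν r)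
    (z : ℂ) : e (cstG _ _ z) = algebraMap ℂ (A.CY ν) z := by
  rw [← phiH_eq hν (isKirwan_cstG z), he, phiC, coefA_cstG]
  rfl

theorem e_smul (hν : A.Regular ν) {e : A.HX ν ≃+* A.CY ν} (he : ∀ r, e (A.phiH ν r) = A.phiC ν r)
    (z : ℂ) {c c' : A.HX ν} (h : ∀ M, c'.1 M = z • c.1 M) : e c' = z • e c := by
  rw [Algebra.smul_def, ← e_cstG hν he, ← map_mul]
  exact congrArg e (Subtype.ext (funext fun M => (h M).trans (by
    change _ = (z • 1) * c.1 M
    rw [smul_mul_assoc, one_mul])))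

end Flav

end Vale.Agent.P291Z
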