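import Vale.Agent.P291Y.B5c
import Vale.Agent.P291Y.BH

/-!
# The algebra `A_F` satisfies the specification of the Coulomb branch algebra
-/

set_option linter.all false

noncomputable section

namespace Vale.Agent.P291Y

open Set Function
open P291Z (BM)
open P291Z.Flav (cls)

section heavy

variable {I E Φ : Type} {Q : P291Z.Quiv I E} [Fintype Φ] [Fintype I] [Fintype E]
  {A : P291Z.Flav Q Φ} {n : ℕ} {χ : I → ℤ} {k : ℤ}

theorem push_up (b : A.An n χ k) (d : ℕ) (hd : 2 * (n + 1) ≤ d) (M : ℕ) :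
    P291Z.Push (P291Z.bmap (A.incNE n χ d) (A.incNE n χ d).map_smul M) (b.1 d M)
      ((P291Z.Flav.An.up b).1 d M) :=
  (congrArg (fun f => P291Z.Push f (b.1 d M) ((P291Z.Flav.An.up b).1 d M))
    ((A.incN_eq n χ d M).trans (P291Z.bmap_eq _ M).symm)).mp
    (P291Z.Flav.push_incN_iff_up.2 rfl d M hd)

end heavy

attribute [local instance] Qv.fV Qv.fA Dat.fF

namespace Dat

variable {D : Dat} {p q : D.Pa} {k k' : ℤ}

theorem cls_eq_of_fam {b : D.toH.An p.bd p.ch k} {b' : D.toH.An p.bd p.ch k'}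
    (h : fam b = fam b') : cls b = cls b' := by
  by_cases e : k = k'
  · subst e
    rw [fam_injective h]
  · have h1 : b.1 = b'.1 := funext fun d => fns_injective (n := dQ D.qv.toH D.Fl) (congrFun h d)
    have h2 := P291Z.Flav.An.at_deg le_rfl b
    have h3 := P291Z.Flav.An.at_deg le_rfl b'
    have h4 : P291Z.Flav.An.at _ le_rfl b = P291Z.Flav.An.at _ le_rfl b' :=
      Subtype.ext (congrFun h1 _)
    have h5 : P291Z.Flav.An.at _ le_rfl b = 0 :=
      (P291Z.EH.comp_of_mem h2).symm.trans ((congrArg _ h4).trans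
        (P291Z.EH.comp_of_ne h3 fun e' => e (by omega)))
    rw [P291Z.Flav.An.at_injective le_rfl (h5.trans (map_zero _).symm),
      P291Z.Flav.An.at_injective le_rfl (h4.symm.trans (h5.trans (map_zero _).symm)),
      P291Z.Flav.cls_zero, P291Z.Flav.cls_zero]

variable (D) in
open Classical in
/-- the class of a family -/
def cA (p : D.Pa) (β : AF p) : D.toH.AA :=
  if h : ∃ x : Σ k, D.toH.An p.bd p.ch k, β = fam x.2 then cls h.choose.2 else 0

theorem cA_fam (b : D.toH.An p.bd p.ch k) : D.cA p (fam b) = cls b := by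
  have h : ∃ x : Σ k, D.toH.An p.bd p.ch k, fam b = fam x.2 := ⟨⟨k, b⟩, rfl⟩
  exact (dif_pos h).trans (cls_eq_of_fam h.choose_spec.symm)

theorem mem_Cl {S : D.Pa → Prop} {a : D.toH.AA} : a ∈ D.Cl D.toH.AA D.cA S ↔
    ∃ n χ k, ∃ b : D.toH.An n χ k, S ⟨n, χ⟩ ∧ a = cls b := by
  constructor
  · rintro ⟨p, k, β, h1, h2, rfl⟩
    obtain ⟨b, rfl⟩ := h2.exists
    exact ⟨p.bd, p.ch, k, b, h1, cA_fam b⟩
  · rintro ⟨n, χ, k, b, h, rfl⟩
    exact ⟨⟨n, χ⟩, k, fam (p := ⟨n, χ⟩) b, h, an_fam (p := ⟨n, χ⟩) b,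
      (cA_fam (p := ⟨n, χ⟩) b).symm⟩

variable (D)

theorem JJ_eq : D.JJ D.toH.AA D.cA = D.toH.JJ D.nu := P291Z.Flav.JJ_eq_span fun _ => mem_Cl

variable {D}

theorem coul_indep (m : ℕ) (p : Fin m → D.Pa) (k : Fin m → ℤ) (β : ∀ j, AF (p j))
    (h1 : ∀ j, An _ (k j) (β j)) (h2 : ∀ j j', (p j).ch = (p j').ch → k j = k j' → j = j')
    (h3 : ∑ j, D.cA _ (β j) = 0) (j d M a) : β j d M a = 0 := by
  choose b hb using fun j => (h1 j).exists
  have h4 := P291Z.Flav.cls_indep (fun j => (p j).bd) (fun j => (p j).ch) k b h2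
    ((Finset.sum_congr rfl fun j _ => (congrArg (D.cA _) (hb j)).trans (cA_fam _)).symm.trans h3) j
  exact (congrFun (congrFun (congrFun ((hb j).trans (congrArg fam h4)) d) M) a).trans
    (fam_zero d M a)

theorem coul_lin (z : ℂ) (b b' : D.toH.An p.bd p.ch k) :
    D.cA p (fun d M a => z * fam b d M a + fam b' d M a) = z • D.cA p (fam b) + D.cA p (fam b') :=
  (congrArg (D.cA p) (fam_lc z b b').symm).trans ((cA_fam _).trans
    ((P291Z.Flav.cls_add _ _).trans (congrArg₂ (· + ·) ((P291Z.Flav.cls_smul z b).trans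
      (congrArg (z • ·) (cA_fam b).symm)) (cA_fam b').symm)))

theorem coul_up (b : D.toH.An p.bd p.ch k) :
    D.cA (Qv.up p) (fam (p := Qv.up p) (P291Z.Flav.An.up b)) = D.cA p (fam b) :=
  (cA_fam (p := Qv.up p) (P291Z.Flav.An.up b)).trans
    ((P291Z.Flav.cls_up b).trans (cA_fam b).symm)

theorem mkR_val (d : ℕ) (L : D.La) (s : D.Sq) (h : InR p d L s) : (mkR p d L s h).1 = (L, s) := rfl

theorem lt_sq (d : ℕ) (x : RT p d) : (lt x, sq x) = x.1 := rfl

theorem up_eq (d : ℕ) (h : ∀ x : RT p d, InR (Qv.up p) d (lt x) (sq x)) :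
    (fun x : RT p d => mkR (Qv.up p) d (lt x) (sq x) (h x)) = D.toH.incNE p.bd p.ch d :=
  funext fun x => Subtype.ext ((mkR_val d _ _ (h x)).trans
    ((lt_sq d x).trans (D.toH.incNE_val p.bd p.ch d x).symm))

theorem coul_push (b : D.toH.An p.bd p.ch k) (d : ℕ) (hd : 2 * (p.bd + 1) ≤ d)
    (h : ∀ x : RT p d, InR (Qv.up p) d (lt x) (sq x)) :
    PushG (RS p d) (RS (Qv.up p) d) (fun x => mkR _ d (lt x) (sq x) (h x)) (fam b d)
      (fam (p := Qv.up p) (P291Z.Flav.An.up b) d) :=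
  (congrArg (fun f => PushG (RS p d) (RS (Qv.up p) d) f (fam b d)
    (fam (p := Qv.up p) (P291Z.Flav.An.up b) d)) (up_eq d h)).mpr
    ((pushG_fns (n := dQ D.qv.toH D.Fl) (Z := D.toH.RS p.bd p.ch d)
      (Z' := D.toH.RS (p.bd + 1) p.ch d) (D.toH.incNE p.bd p.ch d).map_smul).2 (push_up b d hd))

theorem coul_mul (b : D.toH.An p.bd p.ch k) (b' : D.toH.An q.bd q.ch k') :
    ∃ γ, D.cA p (fam b) * D.cA q (fam b') = D.cA _ γ ∧
      ∀ γ', An _ (k + k') γ' ∧ ConvRel (k + k') (fam b) (fam b') γ' ↔ γ' = γ := by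
  obtain ⟨c, h1, h2, h3⟩ := P291Z.Flav.conv_final b b'
  refine ⟨fam (p := Qv.add p q) c, ?_, fun γ => ⟨fun ⟨h4, h5⟩ => ?_, ?_⟩⟩
  · exact (congrArg₂ (· * ·) (cA_fam b) (cA_fam b')).trans
      (h2.trans (cA_fam (p := Qv.add p q) c).symm)
  · obtain ⟨c', rfl⟩ := h4.exists
    exact congrArg fam (h3 c' (convRel_iff.1 h5))
  · rintro rfl
    exact ⟨an_fam (p := Qv.add p q) c, convRel_iff.2 h1⟩

variable (D)

theorem isCoul : D.IsCoul D.toH.AA D.cA := by
  refine ⟨P291Z.Flav.span_cls_top fun n χ k b => mem_Cl.2 ⟨n, χ, k, b, trivial, rfl⟩,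
    coul_indep, fun p k β h => ?_⟩
  obtain ⟨b, rfl⟩ := h.exists
  refine ⟨fun z β' h' => ?_, ⟨_, an_fam (p := Qv.up p) (P291Z.Flav.An.up b), coul_up b,
    fun d hd => coul_push b d hd _⟩, fun q k' β' h' => ?_⟩
  · obtain ⟨b', rfl⟩ := h'.exists
    exact coul_lin z b b'
  · obtain ⟨b', rfl⟩ := h'.exists
    exact coul_mul b b'

end Dat

end Vale.Agent.P291Y

end
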