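import Vale.Agent.P291Y.L2b

/-!
# Lattices, the space of triples, its equivariant Borel-Moore homology, the convolution product
-/

noncomputable section

namespace Vale.Agent.P291Y

open Matrix
open scoped ENNReal

/-- `K = ℂ((t))` -/
abbrev KK : Type := LaurentSeries ℂ

/-- The ring structure of `K`. -/
abbrev rK : CommRing KK := inferInstance

/-- `t^k` -/
def tp (k : ℤ) : KK := HahnSeries.single k 1

/-- The coefficient of `t^k`. -/
def cf (k : ℤ) (a : LaurentSeries ℂ) : ℂ := a.coeff k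

/-- Constants. -/
def ct (a : ℂ) : KK := HahnSeries.C a

/-- `a t^k` -/
def mono (k : ℤ) (a : ℂ) : LaurentSeries ℂ := tp k * ct a

/-- `K^n` as a module over `O = ℂ[[t]]`. -/
def Kn (n : ℕ) : ModuleCat.{0} (PowerSeries ℂ) :=
  ModuleCat.of (PowerSeries ℂ) (Fin n → LaurentSeries ℂ)

/-- The distance of two vectors. -/
def dist' {n : ℕ} (y z : Fin n → LaurentSeries ℂ) : ℝ≥0∞ := ⨆ (b) (k : ℤ), ‖cf k (y b - z b)‖ₑ

/-- The product topology on families of functions. -/
abbrev fnT {I : Type} (Y : I → Type) : TopologicalSpace (∀ i, Y i → ℝ≥0∞) := inferInstance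

/-- The integers in `[-n, n]`. -/
abbrev Ix (n : ℕ) : Type := Finset.Icc (-n : ℤ) n

section raw

variable {I : Type} (v w : I → ℕ) (k : Type) [CommRing k]

/-- Addition of tuples of matrices. -/
abbrev acm : AddCommMonoid (Ms v w k) := inferInstance

/-- Scalar matrices. -/
def scal (c : k) : Ms v v k := fun _ => c • 1

/-- The identity. -/
def mone : Ms v v k := fun _ => 1

/-- The determinant. -/
def mdet (g : Ms v v k) (i : I) : k := (g i).det

/-- Apply a map to all entries. -/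
def mmap {k k' : Type} (f : k → k') (u : Ms v w k) : Ms v w k' := fun j a b => f (u j a b)

/-- The Laurent polynomial `∑_{|k| ≤ n} g_k t^k`. -/
def laur (n : ℕ) (g : Ix n → Ms v v ℂ) : Ms v v KK :=
  @Finset.sum _ _ (@acm _ v v _ rK) Finset.univ fun k : Ix n => mmap v v (mono k.1) (g k)

end raw

/-- A nonzero Laurent series. -/
def Nz (a : LaurentSeries ℂ) : Prop := a ≠ 0

/-- `a x b` in `ℂ^Φ`. -/
def fmul {Φ : Type} (a : Φ → ℂˣ) (x : Φ → ℂ) (b : Φ → ℂˣ) : Φ → ℂ := fun i => a i * x i * b i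

namespace Qv

variable (Q : Qv)

/-- Tuples of `O`-submodules of `V_i(K)`. -/
def Lat : Type := ∀ i, Sm (Kn (Q.dv i))

/-- Tuples of matrices over `K`. -/
abbrev EK : Type := Q.En KK

variable {Q}

/-- Membership -/
def InL (L : Q.Lat) (i : Q.Vx) (y : Fin (Q.dv i) → KK) : Prop := smem (Kn _) (L i) y

/-- Inclusion -/
def le (L L' : Q.Lat) : Prop := ∀ i y, InL L i y → InL L' i y

/-- `g L` -/
def mulL (g : Q.EK) (L : Q.Lat) : Q.Lat :=
  fun i => smap (Kn _) (@mv _ rK _ _ (g i)) (by exact id (h6 _)) (L i)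

/-- `g V(O)`, the submodule generated by the columns of `g`. -/
def lat (g : Q.EK) : Q.Lat := fun i => sspan (Kn _) _ fun b a => g i a b

/-- The inverse -/
def einv (g : Q.EK) : Q.EK := fun i => @mi _ rK _ (g i)

/-- `L' = g g' V(O)` and `L = g V(O)` with `g'` of topological charge `χ`, and
`t^n L ⊆ L' ⊆ t^(-n) L`. -/
def Rel (n : ℕ) (χ : Q.Vx → ℤ) (L L' : Q.Lat) : Prop :=
  (∃ g g' : Q.EK, (∀ i, Nz (@mdet _ _ _ rK g i) ∧ Nz (@mdet _ _ _ rK g' i) ∧
    (@mdet _ _ _ rK g' i).order = χ i) ∧ L = lat g ∧ L' = lat (@mmul _ _ _ _ rK g g')) ∧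
  le (mulL (@scal _ _ _ rK (tp n)) L) L' ∧ le L' (mulL (@scal _ _ _ rK (tp (-n))) L)

/-- `x ∈ N(K)` lies in `g N(O)` for `L = g V(O)`. -/
def Pres (L : Q.Lat) (x : Q.N KK) : Prop :=
  (∀ e y, InL L (Q.src e) y → InL L (Q.tgt e) (@mv _ rK _ _ (ar x e) y)) ∧
    ∀ i y, InL L i y → ∀ l, ∀ k < 0, cf k (@mv _ rK _ _ (fr x i) y l) = 0

/-- Apply a map to all entries. -/
def nmap {k k' : Type} (f : k → k') (x : Q.N k) : Q.N k' :=
  mkN (mmap _ _ f (ar x)) (mmap _ _ f (fr x))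

/-- The polynomial `∑_{k < d} s_k t^k` in `N(O)`. -/
def poly (d : ℕ) (s : ℕ → Q.N ℂ) : Q.N KK :=
  @Finset.sum _ _ (@Prod.instAddCommMonoid _ _ (@acm _ _ _ _ rK) (@acm _ _ _ _ rK))
    (Finset.range d) fun k => nmap (mono k) (s k)

variable (Q)

/-- The topology of the affine Grassmannian: distances to `L` are continuous in `L`. -/
def LatT : TopCat.{0} :=
  @TopCat.of Q.Lat (TopologicalSpace.induced
    (fun (L : Q.Lat) i y => ⨅ (z) (_ : InL L i z), dist' y z) (fnT fun i => Fin (Q.dv i) → KK))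

/-- A bound and a charge. -/
structure Par where
  /-- the bound -/
  bd : ℕ
  /-- the charge -/
  ch : Q.Vx → ℤ

variable {Q}

/-- The sum. -/
def add (p q : Q.Par) : Q.Par := ⟨p.bd + q.bd, fun i => p.ch i + q.ch i⟩

/-- The next bound. -/
def up (p : Q.Par) : Q.Par := ⟨p.bd + 1, p.ch⟩

/-- The degree shift: twice the relative dimension of `g N(O)` and `N(O)` for `g` of charge `χ`,
plus `2 d dim N`. -/
def sh (p : Q.Par) (d : ℕ) : ℤ :=
  2 * (@dot _ Q.fA (fun e => Q.dt e) (fun e => p.ch (Q.src e) + d * Q.ds e) -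
    @dot _ Q.fA (fun e => Q.ds e) (fun e => p.ch (Q.tgt e)) +
    @dot _ Q.fV (fun i => Q.dw i) fun i => p.ch i + d * Q.dv i)

end Qv

namespace Dat

open Qv

variable (D : Dat)

/-- Bounds and charges. -/
abbrev Pa : Type := D.qv.Par

/-- Lattices. -/
abbrev La : Type := D.qv.Lat

/-- Sequences in `N`. -/
abbrev Sq : Type := ℕ → D.Nc

/-- The affine Grassmannian is a subspace of this space. -/
def LL : SG D.nn := ⟨D.qv.LatT, fun g => mulL (mmap _ _ ct (D.ga g))⟩

variable {D}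

/-- The condition defining the space of triples. -/
def InR (p : D.Pa) (d : ℕ) (L : D.La) (s : D.Sq) : Prop :=
  Rel p.bd p.ch (lat (@mone _ _ _ rK)) L ∧ (∀ k, d ≤ k → s k = D.qv.NV.zero) ∧ Pres L (poly d s)

/-- The part of the space of triples `{(g V(O), s) | s ∈ N(O) ∩ g N(O)}` of charge `χ` with
`t^n V(O) ⊆ g V(O) ⊆ t^(-n) V(O)`, modulo `t^d N(O)`. -/
def RS (p : D.Pa) (d : ℕ) : SG D.nn :=
  sub (prod D.LL (D.NN.pow ℕ).gs) (fun x : D.La × D.Sq => InR p d x.1 x.2)
    (by exact id fun g x h => (D.a1 g ⟨x, h⟩).2)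

/-- The points. -/
abbrev RT (p : D.Pa) (d : ℕ) : Type := {x : D.La × D.Sq // InR p d x.1 x.2}

variable {p q : D.Pa} {d d' : ℕ}

/-- The lattice of a triple. -/
def lt (x : RT p d) : D.La := x.1.1

/-- The section of a triple. -/
def sq (x : RT p d) : D.Sq := x.1.2

/-- A triple. -/
def mkR (p : D.Pa) (d : ℕ) (L : D.La) (s : D.Sq) (h : InR p d L s) : RT p d := ⟨(L, s), h⟩

/-- The condition defining the convolution space. -/
def InR2 (q : D.Pa) (x : RT p d × D.La) : Prop :=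
  Rel q.bd q.ch (lt x.1) x.2 ∧ Pres x.2 (poly d (sq x.1))

/-- The convolution space `{(g₁ V(O), s, g₁ g₂ V(O)) | s ∈ N(O) ∩ g₁ N(O) ∩ g₁ g₂ N(O)}`. -/
def R2 (p q : D.Pa) (d : ℕ) : SG D.nn :=
  sub (prod (RS p d) D.LL) (InR2 q) (by exact id fun g x h => (D.a2 g ⟨x, h⟩).2)

/-- The points. -/
abbrev RT2 (p q : D.Pa) (d : ℕ) : Type := Subtype (InR2 (p := p) (d := d) q)

/-- The first triple of a point of the convolution space. -/
def fs (x : RT2 p q d) : RT p d := x.1.1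

/-- The second lattice of a point of the convolution space. -/
def lt2 (x : RT2 p q d) : D.La := x.1.2

/-- Families of functionals. -/
abbrev AF (p : D.Pa) : Type := ∀ d, BG (RS p d)

/-- The equivariant Borel-Moore homology of degree `k` (relative to `dim N(O)`) of the part of the
space of triples with charge `χ` and bound `n`; consecutive truncations are compared through the
zero section of the vector bundle `R / t^(d+1) N(O) → R / t^d N(O)`. -/
def An (p : D.Pa) (k : ℤ) (β : AF p) : Prop :=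
  ∀ d, (d < 2 * p.bd → ∀ M a, β d M a = 0) ∧ (2 * p.bd ≤ d → IsFam _ (k + sh p d) (β d) ∧
    GysG (RS p d) (RS p (d + 1)) (fun x => mkR p _ (lt x) (sq x) (by exact id (D.a3 x).2)) D.NN
      (fun x => sq x d) (β (d + 1)) (β d))

variable (D)

/-- The dimensions of `(G × F) × (G × F)`. -/
def n2 : Dim := D.nn.join D.nn

/-- Pairs `(g, f)`. -/
abbrev WT (n : ℕ) : Type := (Ix n → D.qv.En ℂ) × (D.Fl → ℂ)

variable {D}

/-- The Laurent polynomial matrices of a pair. -/
def wg {n : ℕ} (w : D.WT n) : D.qv.EK := laur _ n w.1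

/-- The flavour part of a pair. -/
def wf {n : ℕ} (w : D.WT n) : D.Fl → ℂ := w.2

/-- Left and right multiplication. -/
def lr {n : ℕ} (h h' : GG D.nn) (x : D.WT n) : D.WT n :=
  (fun k => mmul _ _ ℂ (mmul _ _ ℂ (D.ga h) (x.1 k)) (D.ga h'), fmul (D.fl h) (wf x) (D.fl h'))

variable (D)

/-- Pairs `(g, f)` of a tuple of Laurent polynomial matrices with exponents in `[-n, n]` and
`f ∈ ℂ^Φ`, with `(G × F) × (G × F)` acting by left and right multiplication. -/
def WW (n : ℕ) : VS (GG D.n2) :=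
  ⟨((TV.mats D.qv.dv D.qv.dv).power (Ix n)).times (TV.line.power D.Fl), fun h =>
    lr (fstG D.nn D.nn h) (sndG D.nn D.nn (ginv _ h))⟩

/-- A space with an equivariant map to lattices, a second space and a bound. -/
structure LS where
  /-- the space -/
  sp1 : SG D.nn
  /-- the lattice -/
  lam : sp1.Pt → D.La
  /-- equivariance -/
  eqv : ∀ g z, lam (sp1.act g z) = D.LL.act g (lam z)
  /-- the second space -/
  sp2 : SG D.nn
  /-- the bound -/
  mb : ℕ

variable {D} (Y : D.LS)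

/-- Triples `(z, z', (g, f))`. -/
abbrev LT : Type := (Y.sp1.Pt × Y.sp2.Pt) × D.WT Y.mb

variable {Y}

/-- The first point. -/
def z1 (x : LT Y) : Y.sp1.Pt := x.1.1

/-- The second point. -/
def z2 (x : LT Y) : Y.sp2.Pt := x.1.2

/-- The pair `(g, f)`. -/
def zw (x : LT Y) : D.WT Y.mb := x.2

variable (Y)

/-- The vector bundle of pairs `(g, f)` with the columns of `g` in the lattice. -/
def VV : VB (GG D.n2) :=
  ⟨Pr Y.sp1 Y.sp2, D.WW Y.mb, fun x : LT Y => le (lat (wg (zw x))) (Y.lam (z1 x)),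
    by exact id fun g x => D.h4 g x.2 (Y.eqv _ _)⟩

/-- The data of a point of the total space. -/
def vv (x : (VV Y).tot.Pt) : LT Y := Subtype.val (p := (VV Y).Mem) x

/-- `(g, f) ∈ G(K) × F` and the lattice is `g V(O)`. -/
def InVO (x : (VV Y).tot.Pt) : Prop :=
  lat (wg (zw (vv Y x))) = Y.lam (z1 (vv Y x)) ∧ ∀ a, wf (zw (vv Y x)) a ≠ 0

/-- This is an invariant condition. -/
theorem invO : Inv _ (InVO Y) := fun g x => D.h5 g x.1.2 (Y.eqv _ _)

/-- The open part of that bundle. -/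
def VO : SG D.n2 := sub _ (InVO Y) (invO Y)

/-- The data of a point. -/
def vo (x : (VO Y).Pt) : LT Y := vv Y (Subtype.val (p := InVO Y) x)

/-- `γ` is the pull-back of `β₁ × β₂` along the smooth map `VO → Z × Z'`. -/
def PullV (β₁ : BG Y.sp1) (β₂ : BG Y.sp2) (γ : BG (VO Y)) : Prop :=
  ∃ b, CrossG _ _ β₁ β₂ b ∧ PullG (VV Y) (InVO Y) (invO Y) b γ

open Classical in
/-- The coefficients of `f⁻¹ g⁻¹ s`. -/
def tr {n : ℕ} (w : D.WT n) (d : ℕ) (s : D.Sq) (k : ℕ) : D.Nc :=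
  D.ro (fun a => epsilon fun u : ℂˣ => u * wf w a = 1)
    (nmap (cf k) (@gauge _ _ rK (einv (wg w)) (poly d s)))

variable (p q d d')

/-- The bundle of pairs `(g, f)` over the convolution space: `p⁻¹(R × R)`. -/
def Yq : D.LS := ⟨R2 p q d, fun x => lt (fs x), fun _ _ => rfl, D.p1, p.bd⟩

/-- The bundle of pairs `(g, f)` over `R × R`. -/
def Yp : D.LS := ⟨RS p d, lt, fun _ _ => rfl, RS q d', p.bd⟩

variable {p q d d'}

/-- `y = ((L₁, s), (g⁻¹ L₂, f⁻¹ g⁻¹ s), g, f)` for `x = (L₁, s, L₂, g, f)`. -/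
def Iota (x : LT (Yq p q d)) (y : LT (Yp p q d d')) : Prop :=
  z1 y = fs (z1 x) ∧ zw y = zw x ∧ lt (z2 y) = mulL (einv (wg (zw x))) (lt2 (z1 x)) ∧
    ∀ k < d', sq (z2 y) k = tr (zw x) d (sq (z1 y)) k

/-- The section `f⁻¹ g⁻¹ s - s'` modulo `t^d'`. -/
def sig (y : LT (Yp p q d d')) (k : Fin d') : D.Nc :=
  D.qv.NV.comb (-1) (sq (z2 y) k) (tr (zw y) d (sq (z1 y)) k)

/-- `β₃ = m_* (q^*)⁻¹ p^* (β₁ × β₂)` is the convolution product of `β₁` and `β₂`. -/
def ConvRel (k : ℤ) (β₁ : AF p) (β₂ : AF q) (β₃ : AF (add p q)) : Prop :=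
  ∀ d, 2 * (p.bd + q.bd) ≤ d → ∃ c, IsFam (R2 p q d) (k + sh (add p q) d) c ∧
    PushG (R2 p q d) (RS _ d) (fun x => mkR _ d (lt2 x) (sq (fs x))
      (by exact id (D.a5 x).2)) c (β₃ d) ∧
    ∀ d', 2 * q.bd ≤ d' → ∃ γ γ' ι, PullV (Yq p q d) c (fund _) γ ∧
      PullV (Yp p q d d') (β₁ d) (β₂ d') γ' ∧ (∀ x, Iota (vo _ x) (vo _ (ι x))) ∧
      GysG _ _ ι ⟨_, fun h => (D.NN.pow (Fin d')).rho (sndG D.nn D.nn h)⟩
        (fun y => sig (vo _ y)) γ' γ

variable (D)

/-- Bound zero and charge zero. -/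
def p0 : D.Pa := ⟨0, fun _ => 0⟩

/-- `β` is the cap product of `r` with the fundamental class of the fibre over the base point. -/
def CapRel (r : CG D.p1) (β : AF D.p0) : Prop :=
  ∃ b, AllBM _ b ∧ PushG _ D.p1 (fun _ => ()) (β 0) b ∧
    ∀ M, Gys (fun x => x) (r M) (fund _ M) (b M)

variable (A : Type) [CommRing A] (cls : ∀ p : D.Pa, AF p → A)

/-- The classes whose bound and charge satisfy `S`. -/
def Cl (S : D.Pa → Prop) : Set A := {a | ∃ p k β, S p ∧ An p k β ∧ a = cls p β}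

/-- The ideal generated by the parts of nonzero weight. -/
def JJ : Ideal A := Ideal.span (D.Cl A cls fun p => @dot _ D.qv.fV D.nu p.ch ≠ 0)

/-- `cls` presents the algebra `A` as the equivariant Borel-Moore homology of the space of triples
(the sum over charges and degrees of the direct limits over the bounds) with the convolution
product. -/
def IsCoul [Algebra ℂ A] : Prop :=
  Submodule.span ℂ (D.Cl A cls fun _ => True) = ⊤ ∧
  (∀ m (p : Fin m → D.Pa) (k : Fin m → ℤ) (β : ∀ j, AF (p j)), (∀ j, An _ (k j) (β j)) →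
    (∀ j j', (p j).ch = (p j').ch → k j = k j' → j = j') → ∑ j, cls _ (β j) = 0 →
    ∀ j d M a, β j d M a = 0) ∧
  ∀ p k β, An p k β →
    (∀ z β', An p k β' → cls p (fun d M a => z * β d M a + β' d M a) = z • cls p β + cls p β') ∧
    (∃ β', An (up p) k β' ∧ cls _ β' = cls p β ∧ ∀ d, 2 * (p.bd + 1) ≤ d →
      PushG (RS p d) (RS _ d) (fun x => mkR _ d (lt x) (sq x)
        (by exact id (D.a4 x).2)) (β d) (β' d)) ∧
    ∀ q k' β', An q k' β' → ∃ γ, cls p β * cls q β' = cls _ γ ∧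
      ∀ γ', An _ (k + k') γ' ∧ ConvRel (k + k') β β' γ' ↔ γ' = γ

end Dat

section iso

variable (H A : Type) [CommRing H] [Algebra ℂ H] [CommRing A] [Algebra ℂ A] (J : Ideal A)

/-- `R h a` holds exactly when `e h` is the class of `a`, for an isomorphism `e : H ≃ A / J`. -/
def IsIso (R : H → A → Prop) : Prop :=
  ∃ e : H ≃ₐ[ℂ] A ⧸ J, ∀ h a, R h a ↔ e h = Ideal.Quotient.mk J a

end iso

end Vale.Agent.P291Y
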