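import Vale.Agent.P291Y.B2
import Vale.Agent.P291Y.L3

/-!
# Dictionary for the homology of the bounded parts of the space of triples
-/

set_option linter.all false

noncomputable section

namespace Vale.Agent.P291Y

open Set Function
open P291Z (BM)

attribute [local instance] Qv.fV Qv.fA Dat.fF

namespace Dat

variable {D : Dat} {p q : D.Pa} {k k' : ℤ}

theorem RS_eq (p : D.Pa) (d : ℕ) :
    RS p d = hg (dQ D.qv.toH D.Fl) (D.toH.RS p.bd p.ch d) := rfl

theorem NN_eq : D.NN = hw (dQ D.qv.toH D.Fl) D.toH.NN := rfl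

/-- the raw families of a homology class of a bounded part -/
def fam (b : D.toH.An p.bd p.ch k) : AF p :=
  fun d => fns (n := dQ D.qv.toH D.Fl) (Z := D.toH.RS p.bd p.ch d) (b.1 d)

theorem sh_eq (p : D.Pa) (d : ℕ) (k : ℤ) :
    k + Qv.sh p d = k + 2 * D.qv.toH.idx p.ch + 2 * d * D.qv.toH.dimN := by
  simp only [Qv.sh, dot, P291Z.Quiv.idx, P291Z.Quiv.dimN, mul_add, Finset.sum_add_distrib,
    Finset.sum_sub_distrib, Finset.mul_sum, mul_left_comm _ (d : ℤ), Qv.ds, Qv.dt]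
  simp only [← Finset.mul_sum]
  ring

theorem fam_injective : Injective (fam : D.toH.An p.bd p.ch k → AF p) := fun _ _ h =>
  Subtype.ext (funext fun d => fns_injective (n := dQ D.qv.toH D.Fl) (congrFun h d))

theorem fam_lc (z : ℂ) (b b' : D.toH.An p.bd p.ch k) :
    fam (z • b + b') = fun d M a => z * fam b d M a + fam b' d M a :=
  funext fun d => fns_lc (n := dQ D.qv.toH D.Fl) z (b.1 d) (b'.1 d)

theorem fam_zero (d M a) : fam (0 : D.toH.An p.bd p.ch k) d M a = 0 :=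
  (fns_eq_zero (n := dQ D.qv.toH D.Fl) (Z := D.toH.RS p.bd p.ch d)).2 rfl M a

theorem an_fns {b : ∀ d M, BM (P291Z.Bo (D.qv.toH.nn D.Fl) (D.toH.RS p.bd p.ch d) M)} :
    An p k (fun d => fns (n := dQ D.qv.toH D.Fl) (Z := D.toH.RS p.bd p.ch d) (b d)) ↔
      b ∈ D.toH.An p.bd p.ch k := by
  refine forall_congr' fun d => and_congr (imp_congr_right fun _ =>
    fns_eq_zero (n := dQ D.qv.toH D.Fl) (Z := D.toH.RS p.bd p.ch d)) (imp_congr_right fun _ => and_congr ?_ ?_)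
  · rw [sh_eq]
    exact isFam_fns (n := dQ D.qv.toH D.Fl)
  · exact gysG_fns (n := dQ D.qv.toH D.Fl) (W := D.toH.NN) (Z := D.toH.RS p.bd p.ch d)
      (Z' := D.toH.RS p.bd p.ch (d + 1)) (fun _ _ => rfl) fun _ _ => rfl

theorem an_fam (b : D.toH.An p.bd p.ch k) : An p k (fam b) := an_fns.2 b.2

theorem An.exists {β : AF p} (h : An p k β) : ∃ b : D.toH.An p.bd p.ch k, β = fam b := by
  have h1 : ∀ d, ∃ b, β d = fns (n := dQ D.qv.toH D.Fl) (Z := D.toH.RS p.bd p.ch d) b := fun d => by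
    rcases lt_or_ge d (2 * p.bd) with hd | hd
    · exact ⟨0, funext fun M => funext fun a => ((h d).1 hd M a).trans
        ((fns_eq_zero (n := dQ D.qv.toH D.Fl) (Z := D.toH.RS p.bd p.ch d)).2 rfl M a).symm⟩
    · exact AllBM.exists (n := dQ D.qv.toH D.Fl) ((h d).2 hd).1.1
  choose b hb using h1
  obtain rfl : β = fun d => fns (n := dQ D.qv.toH D.Fl) (Z := D.toH.RS p.bd p.ch d) (b d) :=
    funext hb
  exact ⟨⟨b, an_fns.1 h⟩, rfl⟩

theorem an_iff {β : AF p} : An p k β ↔ ∃ b : D.toH.An p.bd p.ch k, β = fam b :=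
  ⟨An.exists, fun ⟨b, e⟩ => e ▸ an_fam b⟩

end Dat

end Vale.Agent.P291Y

end
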