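import Vale.Agent.P291Y.B5a
import Vale.Agent.P291Y.B3

set_option linter.all false

/-!
# Dictionary for the convolution product and the cap product
-/

noncomputable section

namespace Vale.Agent.P291Y

open Set Function Topology
open P291Z (Coch BM ev δ Bor)

attribute [local instance] Qv.fV Qv.fA Dat.fF

namespace Dat

/-- the dimensions of `G × F` -/
abbrev dn (D : Dat) : Dim := dQ D.qv.toH D.Fl

/-- the dimensions of `(G × F) × (G × F)` -/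
abbrev dn₂ (D : Dat) : Dim := dQ₂ D.qv.toH D.Fl

variable {D : Dat} {p q : D.Pa} {d d' n : ℕ} {k k' : ℤ}

theorem R2_eq : R2 p q d = hg D.dn (D.toH.R2 p.bd p.ch q.bd q.ch d) := rfl

theorem VOq_eq : VO (Yq p q d) = hg D.dn₂ (D.toH.Vq p.bd p.ch q.bd q.ch d) := rfl

theorem VOp_eq : VO (Yp p q d d') = hg D.dn₂ (D.toH.Vp p.bd p.ch q.bd q.ch d d') := rfl

/-- raw families on the space of triples -/
def fR (p : D.Pa) (b : ∀ M, BM (P291Z.Bo D.dn.dm (D.toH.RS p.bd p.ch d) M)) : BG (RS p d) :=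
  fns (n := D.dn) (Z := D.toH.RS p.bd p.ch d) b

/-- raw families on the convolution space -/
def f2 (p q : D.Pa) (b : ∀ M, BM (P291Z.Bo D.dn.dm (D.toH.R2 p.bd p.ch q.bd q.ch d) M)) :
    BG (R2 p q d) :=
  fns (n := D.dn) (Z := D.toH.R2 p.bd p.ch q.bd q.ch d) b

/-- raw families on the bundle over the convolution space -/
def fq (p q : D.Pa) (b : ∀ M, BM (P291Z.Bo D.dn₂.dm (D.toH.Vq p.bd p.ch q.bd q.ch d) M)) :
    BG (VO (Yq p q d)) :=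
  fns (n := D.dn₂) (Z := D.toH.Vq p.bd p.ch q.bd q.ch d) b

/-- raw families on the bundle over the product -/
def fp (p q : D.Pa) (b : ∀ M, BM (P291Z.Bo D.dn₂.dm (D.toH.Vp p.bd p.ch q.bd q.ch d d') M)) :
    BG (VO (Yp p q d d')) :=
  fns (n := D.dn₂) (Z := D.toH.Vp p.bd p.ch q.bd q.ch d d') b

theorem fam_apply (β : D.toH.An p.bd p.ch k) (d : ℕ) : fam β d = fR p (β.1 d) := rfl

theorem eps_inv {c : ℂ} (hc : c ≠ 0) :
    (Classical.epsilon fun u : ℂˣ => u * c = 1) = (Units.mk0 c hc)⁻¹ :=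
  Units.ext (eq_inv_of_mul_eq_one_left (Classical.epsilon_spec (p := fun u : ℂˣ => u * c = 1)
    ⟨(Units.mk0 c hc)⁻¹, inv_mul_cancel₀ hc⟩))

theorem tr_eq (w : P291Z.WW D.qv.toH D.Fl n) (hw : ∀ a, w.2 a ≠ 0) (d : ℕ) (s : ℕ → D.toH.NN)
    (k : ℕ) : tr (D := D) w d s k = P291Z.Flav.tr (A := D.toH) w hw d s k :=
  congrArg (fun f => D.ro f (P291Z.Quiv.coef (D.qv.toH.gauge (P291Z.Quiv.laur w.1)⁻¹
    (P291Z.Quiv.poly d s)) k)) (funext fun a => eps_inv (hw a))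

theorem iota_iff (hd : 2 * q.bd ≤ d') (x : D.toH.Vq p.bd p.ch q.bd q.ch d)
    (y : D.toH.Vp p.bd p.ch q.bd q.ch d d') :
    Iota (vo (Yq p q d) x) (vo (Yp p q d d') y) ↔ y = D.toH.iota hd x := by
  refine ⟨fun ⟨h₁, h₂, h₃, h₄⟩ => ?_, ?_⟩
  · refine Subtype.ext (Subtype.ext (Prod.ext (Prod.ext h₁ (Subtype.ext (Prod.ext h₃
      (funext fun j => ?_)))) h₂))
    by_cases hj : j < d'
    · exact (h₄ j hj).trans (((congrArg (fun z => tr (zw (vo (Yq p q d) x)) d (sq z) j) h₁).trans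
        (tr_eq _ x.2.2 d _ j)).trans (if_pos hj).symm)
    · exact (y.1.1.1.2.2.2.1 j (not_lt.1 hj)).trans (if_neg hj).symm
  · rintro rfl
    exact ⟨rfl, rfl, rfl, fun j hj => (if_pos hj).trans (tr_eq _ x.2.2 d _ j).symm⟩

theorem sig_eq : (fun y : D.toH.Vp p.bd p.ch q.bd q.ch d d' => sig (vo (Yp p q d d') y)) =
    D.toH.sig := funext fun y => funext fun j => by
  have : ∀ a b : D.toH.NN, (-1 : ℂ) • a + b = b - a := fun a b => by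
    rw [neg_one_smul, neg_add_eq_sub]
  exact (this _ _).trans (congrArg (fun a : D.toH.NN => a - y.1.1.1.2.1.2 j) (tr_eq _ y.2.2 d _ j))

theorem pullVq_fns {c : ∀ M, BM (P291Z.Bo D.dn.dm (D.toH.R2 p.bd p.ch q.bd q.ch d) M)}
    {γ : ∀ M, BM (P291Z.Bo D.dn₂.dm (D.toH.Vq p.bd p.ch q.bd q.ch d) M)} :
    PullV (Yq p q d) (f2 p q c) (fund _) (fq p q γ) ↔ ∀ M, ∃ b, P291Z.CrossG (c M) (P291Z.fund _ M) b ∧
      P291Z.Flav.PullV P291Z.Flav.lt₂ P291Z.Flav.lt₂_smul b (γ M) :=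
  (iff_of_eq (congrArg (fun f => PullV (Yq p q d) (f2 p q c) f (fq p q γ)) (fund_eq D.dn))).trans
    (pullV_fns (Y' := Unit) P291Z.Flav.lt₂ P291Z.Flav.lt₂_smul p.bd (b₁ := c) (c := γ)
      (b₂ := P291Z.fund _))

theorem pullVp_fns {b₁ : ∀ M, BM (P291Z.Bo D.dn.dm (D.toH.RS p.bd p.ch d) M)}
    {b₂ : ∀ M, BM (P291Z.Bo D.dn.dm (D.toH.RS q.bd q.ch d') M)}
    {γ : ∀ M, BM (P291Z.Bo D.dn₂.dm (D.toH.Vp p.bd p.ch q.bd q.ch d d') M)} :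
    PullV (Yp p q d d') (fR p b₁) (fR q b₂) (fp p q γ) ↔ ∀ M, ∃ b, P291Z.CrossG (b₁ M) (b₂ M) b ∧
      P291Z.Flav.PullV P291Z.Flav.lt P291Z.Flav.lt_smul b (γ M) :=
  pullV_fns P291Z.Flav.lt P291Z.Flav.lt_smul p.bd (b₁ := b₁) (b₂ := b₂) (c := γ)

/-- the representation in which the section takes its values -/
def WS (D : Dat) (d' : ℕ) : VS (GG D.n2) :=
  ⟨_, fun h => (D.NN.pow (Fin d')).rho (sndG D.nn D.nn h)⟩

/-- the embedding -/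
def iotaL (hd : 2 * q.bd ≤ d') : (VO (Yq p q d)).Pt → (VO (Yp p q d d')).Pt := D.toH.iota hd

/-- the section -/
def sigL : (VO (Yp p q d d')).Pt → (WS D d').tv.Vec := D.toH.sig

theorem sigL_eq : (fun y => sig (vo (Yp p q d d') y)) = sigL := sig_eq

theorem gysI_aux (hd : 2 * q.bd ≤ d')
    {γ : ∀ M, BM (P291Z.Bo D.dn₂.dm (D.toH.Vq p.bd p.ch q.bd q.ch d) M)}
    {γ' : ∀ M, BM (P291Z.Bo D.dn₂.dm (D.toH.Vp p.bd p.ch q.bd q.ch d d') M)} :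
    GysG (VO (Yq p q d)) (VO (Yp p q d d')) (iotaL hd) (WS D d') sigL (fp p q γ') (fq p q γ) ↔
    ∀ M, P291Z.Gys (P291Z.bmap (D.toH.iota hd) (D.toH.iota_smul hd) M)
      (P291Z.euler (fun x => D.toH.sig x.1) fun h x => D.toH.sig_smul h x.1) (γ' M) (γ M) :=
  gysG_fns (n := D.dn₂) (Z := D.toH.Vq p.bd p.ch q.bd q.ch d)
    (Z' := D.toH.Vp p.bd p.ch q.bd q.ch d d')
    (W := P291Z.Snd D.dn.dm D.dn.dm (Fin d' → D.toH.NN)) (f := D.toH.iota hd)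
    (D.toH.iota_smul hd) (σ := D.toH.sig) D.toH.sig_smul (b' := γ') (b := γ)

theorem gysI_fns (hd : 2 * q.bd ≤ d')
    {γ : ∀ M, BM (P291Z.Bo D.dn₂.dm (D.toH.Vq p.bd p.ch q.bd q.ch d) M)}
    {γ' : ∀ M, BM (P291Z.Bo D.dn₂.dm (D.toH.Vp p.bd p.ch q.bd q.ch d d') M)} :
    GysG (VO (Yq p q d)) (VO (Yp p q d d')) (iotaL hd) (WS D d')
      (fun y => sig (vo (Yp p q d d') y)) (fp p q γ') (fq p q γ) ↔
    ∀ M, P291Z.Gys (P291Z.bmap (D.toH.iota hd) (D.toH.iota_smul hd) M)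
      (P291Z.euler (fun x => D.toH.sig x.1) fun h x => D.toH.sig_smul h x.1) (γ' M) (γ M) :=
  (iff_of_eq (congrArg (fun σ => GysG (VO (Yq p q d)) (VO (Yp p q d d')) (iotaL hd) (WS D d') σ
    (fp p q γ') (fq p q γ)) sigL_eq)).trans (gysI_aux hd)

theorem iotaL_iff (hd : 2 * q.bd ≤ d') (ι : (VO (Yq p q d)).Pt → (VO (Yp p q d d')).Pt) :
    (∀ x, Iota (vo _ x) (vo _ (ι x))) ↔ ι = iotaL hd :=
  ⟨fun h => funext fun x => (iota_iff hd x _).1 (h x),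
    fun h x => (iota_iff hd x _).2 (congrFun h x)⟩

theorem pushM_fns {c : ∀ M, BM (P291Z.Bo D.dn.dm (D.toH.R2 p.bd p.ch q.bd q.ch d) M)}
    {b : ∀ M, BM (P291Z.Bo D.dn.dm (D.toH.RS (p.bd + q.bd) (p.ch + q.ch) d) M)} :
    PushG (R2 p q d) (RS (Qv.add p q) d) (fun x => mkR _ d (lt2 x) (sq (fs x)) (D.a5 x).2)
      (f2 p q c) (fR (Qv.add p q) b) ↔ ∀ M, P291Z.Push (D.toH.mm M) (c M) (b M) :=
  pushG_fns (n := D.dn) (Z := D.toH.R2 p.bd p.ch q.bd q.ch d)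
    (Z' := D.toH.RS (p.bd + q.bd) (p.ch + q.ch) d) (f := D.a5) (b := c) (b' := b) fun _ _ => rfl

theorem isFam_f2 {c : ∀ M, BM (P291Z.Bo D.dn.dm (D.toH.R2 p.bd p.ch q.bd q.ch d) M)} :
    IsFam (R2 p q d) k (f2 p q c) ↔ P291Z.IsFam k c :=
  isFam_fns (n := D.dn) (Z := D.toH.R2 p.bd p.ch q.bd q.ch d) (b := c)

theorem exists_f2 {c : BG (R2 p q d)} (h : AllBM _ c) : ∃ b, c = f2 p q b :=
  AllBM.exists (n := D.dn) (Z := D.toH.R2 p.bd p.ch q.bd q.ch d) h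

theorem exists_fq {c : BG (VO (Yq p q d))} (h : AllBM _ c) : ∃ b, c = fq p q b :=
  AllBM.exists (n := D.dn₂) (Z := D.toH.Vq p.bd p.ch q.bd q.ch d) h

theorem exists_fp {c : BG (VO (Yp p q d d'))} (h : AllBM _ c) : ∃ b, c = fp p q b :=
  AllBM.exists (n := D.dn₂) (Z := D.toH.Vp p.bd p.ch q.bd q.ch d d') h

theorem PullV.allBM {Y : D.LS} {β₁ β₂ γ} (h : PullV Y β₁ β₂ γ) : AllBM (VO Y) γ :=
  h.elim fun _ h => h.2.1

/-- the condition on the class on the convolution space -/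
def Inner (c : BG (R2 p q d)) (b₁ : BG (RS p d)) (b₂ : BG (RS q d')) : Prop :=
  ∃ γ γ' ι, PullV (Yq p q d) c (fund _) γ ∧ PullV (Yp p q d d') b₁ b₂ γ' ∧
    (∀ x, Iota (vo _ x) (vo _ (ι x))) ∧
    GysG (VO (Yq p q d)) (VO (Yp p q d d')) ι (WS D d') (fun y => sig (vo _ y)) γ' γ

theorem inner_iff₁ (hd : 2 * q.bd ≤ d') {c : BG (R2 p q d)} {b₁ : BG (RS p d)}
    {b₂ : BG (RS q d')} : Inner c b₁ b₂ ↔ ∃ γ γ', PullV (Yq p q d) c (fund _) (fq p q γ) ∧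
      PullV (Yp p q d d') b₁ b₂ (fp p q γ') ∧ GysG (VO (Yq p q d)) (VO (Yp p q d d')) (iotaL hd)
        (WS D d') (fun y => sig (vo _ y)) (fp p q γ') (fq p q γ) := by
  constructor
  · rintro ⟨γ, γ', ι, k₁, k₂, k₃, k₄⟩
    obtain ⟨γ₁, e₁⟩ := exists_fq k₁.allBM
    obtain ⟨γ₂, e₂⟩ := exists_fp k₂.allBM
    have e : ι = iotaL hd := (iotaL_iff hd ι).1 k₃
    rw [e₁] at k₁
    rw [e₂] at k₂
    rw [e, e₁, e₂] at k₄
    exact ⟨γ₁, γ₂, k₁, k₂, k₄⟩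
  · rintro ⟨γ, γ', k₁, k₂, k₃⟩
    exact ⟨_, _, _, k₁, k₂, (iotaL_iff hd _).2 rfl, k₃⟩

theorem inner_iff (hd : 2 * q.bd ≤ d')
    {c : ∀ M, BM (P291Z.Bo D.dn.dm (D.toH.R2 p.bd p.ch q.bd q.ch d) M)}
    {b₁ : ∀ M, BM (P291Z.Bo D.dn.dm (D.toH.RS p.bd p.ch d) M)}
    {b₂ : ∀ M, BM (P291Z.Bo D.dn.dm (D.toH.RS q.bd q.ch d') M)} :
    Inner (f2 p q c) (fR p b₁) (fR q b₂) ↔ ∀ M, ∃ b b' γ γ',
      P291Z.CrossG (c M) (P291Z.fund _ M) b ∧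
      P291Z.Flav.PullV P291Z.Flav.lt₂ P291Z.Flav.lt₂_smul b γ ∧ P291Z.CrossG (b₁ M) (b₂ M) b' ∧
      P291Z.Flav.PullV P291Z.Flav.lt P291Z.Flav.lt_smul b' γ' ∧
      P291Z.Gys (P291Z.bmap (D.toH.iota hd) (D.toH.iota_smul hd) M)
        (P291Z.euler (fun x => D.toH.sig x.1) fun h x => D.toH.sig_smul h x.1) γ' γ := by
  refine (inner_iff₁ hd).trans ⟨fun ⟨γ, γ', k₁, k₂, k₃⟩ M => ?_, fun h => ?_⟩
  · obtain ⟨b, l₁, l₂⟩ := (pullVq_fns (c := c) (γ := γ)).1 k₁ M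
    obtain ⟨b', l₃, l₄⟩ := (pullVp_fns (b₁ := b₁) (b₂ := b₂) (γ := γ')).1 k₂ M
    exact ⟨b, b', γ M, γ' M, l₁, l₂, l₃, l₄, (gysI_fns hd (γ := γ) (γ' := γ')).1 k₃ M⟩
  · choose b b' γ γ' l₁ l₂ l₃ l₄ l₅ using h
    exact ⟨γ, γ', (pullVq_fns (c := c) (γ := γ)).2 fun M => ⟨_, l₁ M, l₂ M⟩,
      (pullVp_fns (b₁ := b₁) (b₂ := b₂) (γ := γ')).2 fun M => ⟨_, l₃ M, l₄ M⟩,
      (gysI_fns hd (γ := γ) (γ' := γ')).2 l₅⟩

theorem convRel_def {β₁ : AF p} {β₂ : AF q} {β₃ : AF (Qv.add p q)} : ConvRel k β₁ β₂ β₃ ↔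
    ∀ d, 2 * (p.bd + q.bd) ≤ d → ∃ c, IsFam (R2 p q d) (k + Qv.sh (Qv.add p q) d) c ∧
      PushG (R2 p q d) (RS (Qv.add p q) d) (fun x => mkR _ d (lt2 x) (sq (fs x)) (D.a5 x).2)
        c (β₃ d) ∧ ∀ d', 2 * q.bd ≤ d' → Inner c (β₁ d) (β₂ d') := Iff.rfl

theorem convRel_iff {β₁ : D.toH.An p.bd p.ch k} {β₂ : D.toH.An q.bd q.ch k'}
    {β₃ : D.toH.An (Qv.add p q).bd (Qv.add p q).ch (k + k')} :
    ConvRel (k + k') (fam β₁) (fam β₂) (fam β₃) ↔ P291Z.Flav.ConvRel β₁ β₂ β₃ := by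
  rw [convRel_def]
  constructor
  · intro h d hd₀
    obtain ⟨c, h₁, h₂, h₃⟩ := h d hd₀
    obtain ⟨c', e⟩ := exists_f2 h₁.1
    rw [e] at h₁ h₂ h₃
    have hc := isFam_f2.1 h₁
    rw [sh_eq] at hc
    exact ⟨c', hc, fun M => ⟨(pushM_fns (b := β₃.1 d)).1 h₂ M, fun d' hd =>
      (inner_iff hd (b₁ := β₁.1 d) (b₂ := β₂.1 d')).1 (h₃ d' hd) M⟩⟩
  · intro h d hd₀
    obtain ⟨c, h₁, h₂⟩ := h d hd₀
    exact ⟨f2 p q c, isFam_f2.2 (by rw [sh_eq]; exact h₁),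
      (pushM_fns (b := β₃.1 d)).2 fun M => (h₂ M).1, fun d' hd =>
        (inner_iff hd (b₁ := β₁.1 d) (b₂ := β₂.1 d')).2 fun M => (h₂ M).2 d' hd⟩

theorem capRel_iff {r : CG (hg D.dn Unit)} (hr : ∀ M, Closed (r M)) {x : P291Z.Flav.RR D.qv.toH D.Fl}
    (hx : x.1 = fc r) {β : D.toH.An D.p0.bd D.p0.ch k} :
    D.CapRel r (fam β) ↔ P291Z.Flav.CapRel x β := by
  choose t ht e using fun M => (hr M).exists
  have k₁ : ∀ b : ∀ M, BM (P291Z.Bo D.dn.dm Unit M),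
      PushG (RS D.p0 0) D.p1 (fun _ => ()) (fam β 0) (fns (n := D.dn) (Z := Unit) b) ↔
      ∀ M, P291Z.Push (P291Z.Flav.toPt _ _ M) (β.1 0 M) (b M) := fun b =>
    pushG_fns (n := D.dn) (Z := D.toH.RS 0 0 0) (Z' := Unit) (f := fun _ => ()) (b := β.1 0)
      (b' := b) fun _ _ => rfl
  have k₂ : ∀ (b : ∀ M, BM (P291Z.Bo D.dn.dm Unit M)) M,
      Gys (fun x => x) (r M) (fund D.dn M) (fns (n := D.dn) (Z := Unit) b M) ↔
      P291Z.Cap (x.1 M) (P291Z.fund _ M) (b M) := fun b M => by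
    have e₁ : x.1 M = P291Z.hcls (t M) :=
      (congrFun hx M).trans ((congrArg rc (e M)).trans (rc_raw (t M)))
    refine (iff_of_eq (congrArg₂ (fun a f => Gys (fun x => x) a f (fns (n := D.dn) (Z := Unit) b M))
      (e M) (congrFun (fund_eq D.dn) M))).trans
      ((gys_fn (X := Bo (hg D.dn Unit) M) (Y := Bo (hg D.dn Unit) M)).trans ?_)
    refine (P291Z.gys_id_iff (ht M)).trans ⟨fun h s hs => (P291Z.gys_id_iff s.2).2 ?_, fun h =>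
      (P291Z.gys_id_iff (ht M)).1 (h ⟨t M, ht M⟩ ((P291Z.hcls_val _).symm.trans e₁.symm))⟩
    exact h.trans (congrArg _ (e₁.symm.trans (hs.symm.trans (P291Z.hcls_val s).symm)))
  constructor
  · rintro ⟨b, h₁, h₂, h₃⟩ M
    obtain ⟨b, rfl⟩ := AllBM.exists (n := D.dn) (Z := Unit) h₁
    exact ⟨b M, (k₁ b).1 h₂ M, (k₂ b M).1 (h₃ M)⟩
  · intro h
    choose b h₁ h₂ using h
    exact ⟨fns (n := D.dn) (Z := Unit) b, allBM_fns (n := D.dn) (Z := Unit) b, (k₁ b).2 h₁, fun M => (k₂ b M).2 (h₂ M)⟩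

theorem capRel_hc {r : CG (hg D.dn Unit)} {j : ℤ} (hr : IsHG _ j r)
    {β : D.toH.An D.p0.bd D.p0.ch k} : D.CapRel r (fam β) ↔ P291Z.Flav.CapRel (hc r) β :=
  capRel_iff (fun M => (hr M).1) hr.hc_val

end Dat

end Vale.Agent.P291Y

end
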