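import Vale.Agent.P291Y.L3

/-!
# Graded isomorphisms of algebras
-/

namespace Vale.Agent.P291Y

variable (R H A : Type) [CommRing R] [CommRing H] [CommRing A] [Algebra R H] [Algebra R A]

/-- The structure map of an algebra. -/
def am (r : R) : H := algebraMap R H r

/-- An isomorphism of `R`-algebras `H ≃ A / J` that identifies, for every `k`, the set `P k` with the
image of the additive group generated by `P' k`. -/
def GrIso (J : Ideal A) (P : ℤ → Set H) (P' : ℤ → Set A) : Prop :=
  ∃ e : H ≃ₐ[R] A ⧸ J, ∀ k h, h ∈ P k ↔
    ∃ a ∈ AddSubgroup.closure (P' k), e h = Submodule.Quotient.mk a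

end Vale.Agent.P291Y
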