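import Vale.Agent.P291Y.B6a
import Vale.Agent.P291Y.L4
import Vale.Agent.P291Y.B5

set_option linter.all false

/-!
# The equivariant Hikita conjecture in the terms of the statement
-/

noncomputable section

namespace Vale.Agent.P291Y

open Set Function Dat

section ring

variable (n : Dim)

/-- the scalars as a ring homomorphism -/
def scR (Z : Type) [TopologicalSpace Z] [MulAction (P291Z.GG n.dm) Z] : ℂ →+* P291Z.HG n.dm Z where
  toFun := sc n Z
  map_one' := Subtype.ext (funext fun _ => one_smul _ _)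
  map_mul' z w := Subtype.ext (funext fun M => (mul_smul z w 1).trans (sc_mul z (sc n Z w) M).symm)
  map_zero' := Subtype.ext (funext fun _ => zero_smul _ _)
  map_add' z w := Subtype.ext (funext fun _ => add_smul z w 1)

end ring

attribute [local instance] Qv.fV Qv.fA Dat.fF

/-- the cohomology ring of the point -/
def Rpt (D : Dat) : Type := P291Z.Flav.RR D.qv.toH D.Fl

theorem RR_comm {D : Dat} (a b : P291Z.Flav.RR D.qv.toH D.Fl) : a * b = b * a :=
  P291Z.psi_injective (by rw [map_mul, map_mul, mul_comm])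

instance (D : Dat) : CommRing (Rpt D) :=
  { (inferInstance : Ring (P291Z.Flav.RR D.qv.toH D.Fl)) with mul_comm := RR_comm }

instance (D : Dat) : Algebra ℂ (Rpt D) :=
  RingHom.toAlgebra (S := Rpt D) (scR (dQ D.qv.toH D.Fl) Unit)

theorem isCoh_pt (D : Dat) : IsCoh D.p1 (Rpt D) D.hp :=
  isCoh_of (n := dQ D.qv.toH D.Fl) (Z := Unit) (S := Rpt D) (RingEquiv.refl _)
    fun z => (mul_one (_ : Rpt D)).symm

theorem grIso_self {R A : Type} [CommRing R] [CommRing A] [Algebra R A] {J J' : Ideal A}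
    (h : J = J') {P : ℤ → Set (A ⧸ J')} {P' : ℤ → Set A}
    (hP : ∀ k x, x ∈ P k ↔ ∃ a ∈ AddSubgroup.closure (P' k), x = Ideal.Quotient.mk J' a) :
    GrIso R (A ⧸ J') A J P P' := by
  subst h
  exact ⟨AlgEquiv.refl, hP⟩

theorem mem_Adeg {D : Dat} {k : ℤ} {a : D.toH.AA} :
    a ∈ AddSubgroup.closure {a | ∃ p β, An p k β ∧ a = D.cA p β} ↔ a ∈ D.toH.Adeg k := by
  refine ⟨fun h => (AddSubgroup.closure_le (D.toH.Adeg k).toAddSubgroup).2 ?_ h, fun h => ?_⟩
  · rintro _ ⟨p, β, hβ, rfl⟩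
    obtain ⟨b, rfl⟩ := hβ.exists
    exact Submodule.subset_span ⟨_, _, b, cA_fam b⟩
  · suffices ∀ z : ℂ, z • a ∈ AddSubgroup.closure {a | ∃ p β, An p k β ∧ a = D.cA p β} from
      one_smul ℂ a ▸ this 1
    induction h using Submodule.span_induction with
    | zero => exact fun z => by rw [smul_zero]; exact zero_mem _
    | add x y _ _ hx hy => exact fun z => (smul_add z x y).symm ▸ add_mem (hx z) (hy z)
    | smul w x _ hx => exact fun z => (mul_smul z w x) ▸ hx (z * w)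
    | mem x hx =>
      obtain ⟨n, χ, b, rfl⟩ := hx
      exact fun z => AddSubgroup.subset_closure ⟨⟨n, χ⟩, fam (p := ⟨n, χ⟩) (z • b), an_fam _,
        ((cA_fam (p := ⟨n, χ⟩) (z • b)).trans (P291Z.Flav.cls_smul z b)).symm⟩

theorem final (D : Dat) (hν : D.Regular) :
    ∃ (R H A : Type) (_ : CommRing R) (_ : CommRing H) (_ : CommRing A) (_ : Algebra ℂ R)
      (_ : Algebra ℂ H) (_ : Algebra ℂ A) (_ : Algebra R H) (_ : Algebra R A) (cr : CG D.p1 → R)
      (cl : CG D.XX → H) (cls : ∀ p : D.Pa, AF p → A),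
      IsCoh D.p1 R cr ∧ IsCoh D.XX H cl ∧ D.IsCoul A cls ∧
      (∀ k r, IsHG _ k r → ∃ c β, IsHG _ k c ∧ am R H (cr r) = cl c ∧ am R A (cr r) = cls _ β ∧
        (∀ c', IsHG _ k c' → (D.Kirwan r c' ↔ cl c' = cl c)) ∧
        ∀ β', An _ (-k) β' ∧ D.CapRel r β' ↔ β' = β) ∧
      GrIso R H A (D.JJ A cls) (fun k h => ∃ c, IsHG _ k c ∧ h = cl c)
        fun k a => ∃ p β, An p (-k) β ∧ a = cls p β := by
  classical
  have hν' := regular hν
  obtain ⟨W⟩ := P291Z.exists_wts D.toH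
  obtain ⟨-, -, h3, e, he, hd⟩ := P291Z.Flav.heavy _ D.toH D.nu hν'
  letI : Algebra (Rpt D) D.toH.AA := RingHom.toAlgebra (R := Rpt D) (P291Z.Flav.coefR W)
  refine ⟨Rpt D, D.toH.CY D.nu, D.toH.AA, inferInstance, inferInstance, inferInstance,
    inferInstance, inferInstance, inferInstance, inferInstance, inferInstance, D.hp,
    fun c => e (D.hx c), D.cA, isCoh_pt D, isCoh e (P291Z.Flav.e_cstG hν' he), D.isCoul,
    fun k r hr => ?_, grIso_self D.JJ_eq fun k x => ⟨?_, ?_⟩⟩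
  · obtain ⟨b, h4, h5, h6⟩ := h3 k _ (hp_deg hr)
    obtain ⟨c, h7, h8⟩ := exists_hx ((hd k (D.toH.phiH D.nu (D.hp r))).2
      ⟨_, P291Z.Flav.coefA_mem_Adeg (hp_deg hr), he _⟩)
    refine ⟨c, fam (p := D.p0) b, h7, ((congrArg e h8).trans (he _)).symm,
      h5.trans (cA_fam (p := D.p0) b).symm, fun c' h9 => (kirwan_iff hr h9).trans
        ⟨fun h10 => congrArg e ((P291Z.Flav.phiH_eq hν' h10).symm.trans h8.symm), fun h10 =>
          ((e.injective h10).trans h8).symm ▸ P291Z.Flav.phiH_spec hν' _⟩,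
      fun β' => ⟨fun h => ?_, ?_⟩⟩
    · obtain ⟨b', rfl⟩ := h.1.exists
      exact congrArg fam (h6 b' ((capRel_hc hr).1 h.2))
    · rintro rfl
      exact ⟨an_fam _, (capRel_hc hr).2 h4⟩
  · rintro ⟨c, hc, rfl⟩
    obtain ⟨a, h1, h2⟩ := (hd k (D.hx c)).1 (IsHG.hc_deg (n := dF D.Fl) (Z := D.toH.XX D.nu) hc)
    exact ⟨a, mem_Adeg.2 h1, h2⟩
  · rintro ⟨a, h1, h2⟩
    obtain ⟨x, rfl⟩ := e.surjective x
    obtain ⟨c, h3, rfl⟩ := exists_hx ((hd k x).2 ⟨a, mem_Adeg.1 h1, h2⟩)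
    exact ⟨c, h3, rfl⟩

end Vale.Agent.P291Y

end
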