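import Vale.Agent.P291Y.B3
import Vale.Agent.P291Y.BH
import Vale.Agent.P291Y.L3

set_option linter.all false

/-!
# Classes on the point and on the quiver variety, the Kirwan map
-/

noncomputable section

namespace Vale.Agent.P291Y

open Set Function
open P291Z (H HG HGdeg)

/-- the dimensions of `F` -/
abbrev dF (Φ : Type) [Fintype Φ] : Dim := ⟨Φ, inferInstance, fun _ => 1⟩

section

variable {I E Φ : Type} [Fintype I] [Fintype E] [Fintype Φ] {Q : P291Z.Quiv I E}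
  (A : P291Z.Flav Q Φ) (ν : I → ℤ)

theorem toX_smul (g : P291Z.GG (Q.nn Φ)) (x : A.Zst ν) :
    A.toX ν (g • x) = P291Z.sndG Q.v (fun _ : Φ => 1) g • A.toX ν x :=
  Quotient.sound' ⟨⟨g * (P291Z.inrG Q.v _ (P291Z.sndG _ _ g))⁻¹, by
    rw [MonoidHom.mem_ker, map_mul, map_inv]; exact mul_inv_cancel _⟩, by
    change (g * (P291Z.inrG Q.v _ (P291Z.sndG _ _ g))⁻¹) •
      P291Z.inrG Q.v _ (P291Z.sndG _ _ g) • x = g • x
    rw [smul_smul, inv_mul_cancel_right]⟩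

theorem toXF_eq (M : ℕ) : omap (hg (dQ Q Φ) (A.Zst ν)) (EE _ M) (hg (dF Φ) (A.XX ν)) (EE _ M)
    (fun z _ => A.toX ν z) P291Z.sndE = A.toXF ν M :=
  omap_eq (H := P291Z.GG (Q.nn Φ)) (Z := A.Zst ν) (P := P291Z.EE (Q.nn Φ) M) (Z' := A.XX ν)
    (P' := P291Z.EE (fun _ : Φ => 1) M)
    (P291Z.sndG Q.v fun _ : Φ => 1) (fun z _ => A.toX ν z) P291Z.sndE fun g x =>
    Prod.ext (toX_smul A ν g x.1) rfl

theorem kirwan_iff' {k k' : ℤ} {r : CG (hg (dQ Q Φ) Unit)} {c : CG (hg (dF Φ) (A.XX ν))}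
    (hr : IsHG _ k r) (hc' : IsHG _ k' c) :
    (∀ M, Coh (pull (X := Bo (hg (dQ Q Φ) (A.Zst ν)) M) (Y := Bo (hg (dF Φ) (A.XX ν)) M)
      (omap (hg (dQ Q Φ) (A.Zst ν)) (EE _ M) (hg (dF Φ) (A.XX ν)) (EE _ M)
        (fun z _ => A.toX ν z) P291Z.sndE) (c M))
      (pull (bmap (hg (dQ Q Φ) (A.Zst ν)) (pt _) (fun _ => ()) M) (r M))) ↔
      A.IsKirwan ν (hc r) (hc c) := forall_congr' fun M => by
  rw [hr.hc_val, hc'.hc_val, toXF_eq, toPt_eq]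
  exact coh_pull_iff (X := Bo (hg (dQ Q Φ) (A.Zst ν)) M) (A.toXF ν M)
    (P291Z.Flav.toPt _ (A.Zst ν) M) (hc' M).1 (hr M).1

end

namespace Dat

attribute [local instance] Qv.fV Qv.fA Dat.fF

variable (D : Dat)

theorem XX_hg : D.XX = hg (dF D.Fl) (D.toH.XX D.nu) := rfl

theorem Zst_hg : D.Zst = hg (dQ D.qv.toH D.Fl) (D.toH.Zst D.nu) := rfl

theorem p1_hg : D.p1 = hg (dQ D.qv.toH D.Fl) Unit := rfl

/-- the class of a family on the point -/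
def hp (r : CG D.p1) : P291Z.Flav.RR D.qv.toH D.Fl := hc (n := dQ D.qv.toH D.Fl) (Z := Unit) r

/-- the class of a family on the quiver variety -/
def hx (c : CG D.XX) : D.toH.HX D.nu := hc (n := dF D.Fl) (Z := D.toH.XX D.nu) c

variable {D} {k k' : ℤ} {r : CG D.p1} {c : CG D.XX}

theorem regular (h : D.Regular) : D.toH.Regular D.nu :=
  fun z hz => ⟨(h z.1 z.2 hz).1, fun hs g hg e =>
    (h z.1 z.2 hz).2 hs g hg (congrArg Prod.fst e) (congrArg Prod.snd e)⟩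

theorem hp_val (h : IsHG D.p1 k r) (M : ℕ) : (D.hp r).1 M = rc (r M) :=
  congrFun (IsHG.hc_val (n := dQ D.qv.toH D.Fl) (Z := Unit) h) M

theorem hp_deg (h : IsHG D.p1 k r) : (D.hp r).1 ∈ HGdeg _ _ k :=
  IsHG.hc_deg (n := dQ D.qv.toH D.Fl) (Z := Unit) h

theorem exists_hx {x : D.toH.HX D.nu} (h : x.1 ∈ HGdeg _ _ k) : ∃ c, IsHG D.XX k c ∧ D.hx c = x :=
  exists_hc (n := dF D.Fl) (Z := D.toH.XX D.nu) h

theorem kirwan_iff (hr : IsHG D.p1 k r) (hc : IsHG D.XX k' c) :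
    D.Kirwan r c ↔ D.toH.IsKirwan D.nu (D.hp r) (D.hx c) := kirwan_iff' D.toH D.nu hr hc

theorem isCoh {S : Type} [CommRing S] [Algebra ℂ S] (e : D.toH.HX D.nu ≃+* S)
    (he : ∀ z, e (P291Z.cstG _ _ z) = algebraMap ℂ S z) : IsCoh D.XX S fun c => e (D.hx c) :=
  isCoh_of (n := dF D.Fl) (Z := D.toH.XX D.nu) e fun z =>
    (he z).trans (Algebra.algebraMap_eq_smul_one z)

theorem hp_rep (h : IsHG D.p1 k r) (M : ℕ) :
    ∃ t : P291Z.Zs (Bo D.p1 M), raw t.1 = r M ∧ H.mk t = (D.hp r).1 M := by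
  obtain ⟨a, ha, e⟩ := (h M).1.exists
  exact ⟨⟨a, ha⟩, e.symm, ((hp_val h M).trans ((congrArg rc e).trans ((rc_raw a).trans
    (P291Z.hcls_of_mem ha)))).symm⟩

end Dat

end Vale.Agent.P291Y

end
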