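import Vale.Agent.P291Y.L2
import Vale.Agent.P291Z.Coul2
import Vale.Agent.P291Z.Lat.L6

/-!
# The data of the statement as data of the proof
-/

set_option linter.all false

noncomputable section

namespace Vale.Agent.P291Y

open Set Function

attribute [local instance] Qv.fV Qv.fA Dat.fF

/-- the quiver -/
abbrev Qv.toH (Q : Qv) : P291Z.Quiv Q.Vx Q.Ar := ⟨Q.src, Q.tgt, Q.dv, Q.dw⟩

namespace Dat

variable (D : Dat)

theorem alg' : IsTor (D.qv.toH.N ℂ) D.Fl D.ro := D.alg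

/-- the linear maps of the flavour action -/
def lm (g : D.Fl → ℂˣ) : Module.End ℂ (D.qv.toH.N ℂ) where
  toFun := D.ro g
  map_add' := (D.alg'.1 g).1
  map_smul' := (D.alg'.1 g).2

/-- the flavour action -/
def toH : P291Z.Flav D.qv.toH D.Fl where
  ρ := ⟨⟨D.lm, LinearMap.ext D.alg'.2.1⟩, fun g h => LinearMap.ext (D.alg'.2.2.1 g h)⟩
  alg := by
    have h : Submodule.span ℂ {y : D.qv.toH.N ℂ | ∃ χ : D.Fl → ℤ, ∀ f,
      D.lm f y = ((∏ a, f a ^ χ a : ℂˣ) : ℂ) • y} = ⊤ := D.alg'.2.2.2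
    refine eq_top_iff.2 (h.ge.trans ?_)
    refine Submodule.span_le.2 ?_
    rintro y ⟨χ, hχ⟩
    exact Submodule.mem_iSup_of_mem χ ((Submodule.mem_iInf _).2 fun g =>
      Module.End.mem_eigenspace_iff.2 (hχ g))
  comm f g := LinearMap.ext (D.comm f g)

/-- the group -/
abbrev GH : Type := P291Z.GG (D.qv.toH.nn D.Fl)

/-- the product of two copies of the group -/
abbrev GH2 : Type := P291Z.GG (Sum.elim (D.qv.toH.nn D.Fl) (D.qv.toH.nn D.Fl))

theorem h1 (g : D.GH) : IsCL (D.qv.toH.N ℂ) (D.toH.rep g) :=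
  ⟨(D.toH.rep g).isLinear, (D.toH.rep g).continuous_of_finiteDimensional⟩

theorem h2 (g : D.GH) (x : D.toH.NN × D.toH.ND) (h : x ∈ D.toH.Zst D.nu) :
    g • x ∈ D.toH.Zst D.nu := (D.toH.Zst D.nu).smul_mem g h

open P291Z in
theorem h3 (f : P291Z.GG fun _ : D.Fl => 1) (a b : D.toH.Zst D.nu)
    (h : ∃ g : (P291Z.sndG D.qv.dv fun _ : D.Fl => 1).ker, g • b = a) :
    ∃ g : (P291Z.sndG D.qv.dv fun _ : D.Fl => 1).ker,
      g • inrG D.qv.dv _ f • b = inrG D.qv.dv _ f • a := by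
  obtain ⟨g, rfl⟩ := h
  refine ⟨⟨inrG D.qv.dv _ f * g * (inrG D.qv.dv _ f)⁻¹,
    MonoidHom.normal_ker _ |>.conj_mem _ g.2 _⟩, ?_⟩
  have : ∀ x y : D.GH, (x * y * x⁻¹) • x • b = x • y • b := fun x y => by
    rw [smul_smul, inv_mul_cancel_right, mul_smul]
  exact this _ _

variable {n n' d : ℕ} {χ χ' : D.qv.Vx → ℤ}

/-- the action -/
def a1 (g : D.GH) (x : D.toH.RS n χ d) : D.toH.RS n χ d := g • x

/-- the action -/
def a2 (g : D.GH) (x : D.toH.R2 n χ n' χ' d) : D.toH.R2 n χ n' χ' d := g • x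

/-- the zero section -/
def a3 (x : D.toH.RS n χ d) : D.toH.RS n χ (d + 1) := D.toH.incDE _ _ d x

/-- the embedding -/
def a4 (x : D.toH.RS n χ d) : D.toH.RS (n + 1) χ d := D.toH.incNE _ _ d x

/-- the multiplication -/
def a5 (x : D.toH.R2 n χ n' χ' d) : D.toH.RS (n + n') (χ + χ') d := D.toH.mmE _ _ _ _ d x

open P291Z.Quiv P291Z.Flav in
theorem h4 (g : D.GH2) (w : P291Z.WW D.qv.toH D.Fl n) {L L' : D.qv.toH.Lat}
    (e : L' = P291Z.fstG _ _ g • L) (h : lat (laur w.1) ≤ L) : lat (laur (g • w).1) ≤ L' :=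
  (lat_laur_smul g w).trans_le ((smul_le_smul _ h).trans_eq e.symm)

open P291Z.Quiv P291Z.Flav in
theorem h5 (g : D.GH2) (w : P291Z.WW D.qv.toH D.Fl n) {L L' : D.qv.toH.Lat}
    (e : L' = P291Z.fstG _ _ g • L) (h : lat (laur w.1) = L ∧ ∀ a, w.2 a ≠ 0) :
    lat (laur (g • w).1) = L' ∧ ∀ a, (g • w).2 a ≠ 0 :=
  ⟨(lat_laur_smul g w).trans ((congrArg _ h.1).trans e.symm), ne_zero_smul g h.2⟩

end Dat

theorem h6 {a : ℕ} (g : Matrix (Fin a) (Fin a) P291Z.KK) : IsLinearMap P291Z.OO g.mulVec :=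
  (g.mulVecLin.restrictScalars P291Z.OO).isLinear

end Vale.Agent.P291Y
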