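import Mathlib

/-!
# Alexander-Spanier cochains, Borel-Moore classes and their operations
-/

noncomputable section

namespace Vale.Agent.P291Y

open Topology

/-- Cochains with complex coefficients: a cochain of degree `k` is a function of lists of `k + 1` points. -/
abbrev C (X : TopCat.{0}) : Type := List X → ℂ

/-- Functionals on cochains. -/
abbrev B (X : TopCat.{0}) : Type := C X → ℂ

variable {X Y X₁ X₂ : TopCat.{0}}

/-- The cup product. -/
def cup (a b : C X) : C X := fun l =>
  ∑ p ∈ Finset.range l.length, a (l.take (p + 1)) * b (l.drop p)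

/-- The coboundary. -/
def cob (a : C X) : C X := fun l => ∑ i ∈ Finset.range l.length, (-1) ^ i * a (l.eraseIdx i)

/-- The unit. -/
def unit (X : TopCat.{0}) : C X := fun l => if l.length = 1 then 1 else 0

/-- `c a + b` -/
def lin (c : ℂ) (a b : C X) : C X := fun l => c * a l + b l

/-- Pull-back. -/
def pull (f : X → Y) (a : C Y) : C X := fun l => a (l.map f)

/-- Finite sums of homogeneous cochains of degrees `0, 1, 2, …`. -/
def IsCo (a : C X) : Prop := a [] = 0 ∧ ∃ N, ∀ l : List X, N < l.length → a l = 0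

/-- Homogeneous of degree `k`. -/
def IsDeg (k : ℤ) (a : C X) : Prop := ∀ l : List X, (l.length : ℤ) ≠ k + 1 → a l = 0

/-- The support. -/
def supp (a : C X) : Set X := {x | ∀ U ∈ 𝓝 x, ∃ l : List X, (∀ y ∈ l, y ∈ U) ∧ a l ≠ 0}

/-- Cocycles. -/
def Closed (a : C X) : Prop := IsCo a ∧ supp (cob a) = ∅

/-- `a` and `b` are cohomologous through a cochain whose support has the property `P`. -/
def Cohom (P : Set X → Prop) (a b : C X) : Prop :=
  ∃ c, IsCo c ∧ P (supp c) ∧ supp (fun l => a l - b l - cob c l) = ∅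

/-- Cocycles with compact support. -/
def Zc (a : C X) : Prop := Closed a ∧ IsCompact (supp a)

/-- Borel-Moore classes: linear forms on cohomology with compact supports. -/
def IsBM (β : B X) : Prop :=
  (∀ a, ¬ Zc a → β a = 0) ∧ ∀ a b, Zc a → Zc b →
    (∀ c, β (lin c a b) = c * β a + β b) ∧ (Cohom IsCompact a b → β a = β b)

/-- `β` has homological degree `k`. -/
def BDeg (k : ℤ) (β : B X) : Prop := ∀ j a, j ≠ k → IsDeg j a → β a = 0

/-- Push-forward along a proper map. -/
def Push (f : X → Y) (β : B X) (β' : B Y) : Prop := ∀ a, Zc a → β' a = β (pull f a)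

/-- Restriction along an open embedding. -/
def Res (j : X → Y) (β : B Y) (β' : B X) : Prop :=
  ∀ a, Zc a → supp a ⊆ Set.range j → β' (pull j a) = β a

/-- Gysin pull-back along a closed embedding. -/
def Gys (i : X → Y) (t : C Y) (β : B Y) (β' : B X) : Prop :=
  ∀ a, IsCo a → IsCompact (supp a) → (∀ x, i x ∉ supp (cob a)) → β' (pull i a) = β (cup a t)

/-- Cross product. -/
def Cross (p₁ : X → X₁) (p₂ : X → X₂) (β₁ : B X₁) (β₂ : B X₂) (β : B X) : Prop :=
  ∀ a₁ a₂, Zc a₁ → Zc a₂ → β (cup (pull p₁ a₁) (pull p₂ a₂)) = β₁ a₁ * β₂ a₂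

/-- `ℂ^r` -/
def Cr (r : ℕ) : TopCat.{0} := TopCat.of (Fin r → ℂ)

/-- The winding cochain `(z, z') ↦ log (z' i / z i) / (2 π i)`. -/
def wind (r : ℕ) (i : Fin r) : C (Cr r) := fun l =>
  if l.length = 2 then
    Complex.log ((l.map fun z => z i).getD 1 0 / (l.map fun z => z i).getD 0 0) /
      (2 * Real.pi * Complex.I) else 0

/-- The orientation cocycle of `ℂ^r`. -/
def tau (r : ℕ) : C (Cr r) := (List.ofFn fun i => cob (wind r i)).foldr cup (unit _)

/-- Thom cocycles. -/
def IsThom (Z : X → Prop) (chart : (r : ℕ) → (Cr r → X) → Prop) (t : C X) : Prop :=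
  Closed t ∧ (∀ x ∈ supp t, Z x) ∧ ∀ r φ, chart r φ →
    Cohom (X := Cr r) (fun S => ∀ z ∈ S, ∀ i, z i = 0) (pull φ t) (tau r) ∧
      ∀ z (l : List X), l.length ≠ 2 * r → t (φ z :: l) = 0

end Vale.Agent.P291Y
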