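import Vale.Agent.P291Y.L1

/-!
# Quiver data, the representation `N`, flavour tori, moment map and stability
-/

noncomputable section

namespace Vale.Agent.P291Y

open Matrix

section lin

variable (V : Type) [AddCommGroup V] [Module ℂ V]

/-- An algebraic linear action of the torus `(ℂ^*)^Φ`. -/
def IsTor (Φ : Type) [Fintype Φ] (ρ : (Φ → ℂˣ) → V → V) : Prop :=
  (∀ f, IsLinearMap ℂ (ρ f)) ∧ (∀ x, ρ (fun _ => 1) x = x) ∧
    (∀ f f' x, ρ (fun a => f a * f' a) x = ρ f (ρ f' x)) ∧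
    Submodule.span ℂ {y | ∃ χ : Φ → ℤ, ∀ f, ρ f y = ((∏ a, f a ^ χ a : ℂˣ) : ℂ) • y} = ⊤

variable [TopologicalSpace V]

/-- The dual space. -/
def dual : TopCat.{0} := TopCat.of (V →L[ℂ] ℂ)

/-- The pairing. -/
def dev (p : dual V) (x : V) : ℂ :=
  ContinuousLinearMap.toLinearMap (σ := RingHom.id ℂ) (M := V) (M₂ := ℂ) p x

/-- Continuous linear maps. -/
def IsCL (f : V → V) : Prop := IsLinearMap ℂ f ∧ Continuous f

/-- The transpose. -/
def dtr (f : V → V) (hf : IsCL V f) (p : dual V) : dual V :=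
  ContinuousLinearMap.comp (σ₂₃ := RingHom.id ℂ) (M₂ := V) (M₃ := ℂ) p ⟨hf.1.mk' f, hf.2⟩

end lin

section mod

variable {O : Type} [CommRing O] (V : ModuleCat.{0} O)

/-- Submodules. -/
def Sm : Type := Submodule O V

/-- Membership. -/
def smem (L : Submodule O V) (y : V) : Prop := y ∈ L

/-- Nonzero submodules. -/
def NeBot (L : Submodule O V) : Prop := L ≠ ⊥

/-- Proper submodules. -/
def NeTop (L : Submodule O V) : Prop := L ≠ ⊤

/-- The rank. -/
def rk (L : Submodule O V) : ℤ := Module.finrank O L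

/-- Linear maps. -/
def IsLin (f : V → V) : Prop := IsLinearMap O f

/-- The image of a submodule. -/
def smap (f : V → V) (h : IsLin V f) (L : Submodule O V) : Sm V :=
  L.map (IsLinearMap.mk' f h)

/-- The submodule generated by a family. -/
def sspan (J : Type) (y : J → V) : Sm V := Submodule.span O (Set.range y)

end mod

section mat

variable (k : Type) [CommRing k] {a b c : ℕ}

/-- The product of matrices. -/
def mx (x : Matrix (Fin a) (Fin b) k) (y : Matrix (Fin b) (Fin c) k) : Matrix (Fin a) (Fin c) k :=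
  x * y

/-- The inverse of a matrix. -/
def mi (x : Matrix (Fin a) (Fin a) k) : Matrix (Fin a) (Fin a) k := x⁻¹

/-- A matrix applied to a vector. -/
def mv (x : Matrix (Fin a) (Fin b) k) (y : Fin b → k) : Fin a → k := x *ᵥ y

end mat

open Classical in
/-- Elementary matrices in a tuple. -/
def elem {J : Type} (n m : J → ℕ) (j : J) (a : Fin (n j)) (b : Fin (m j)) : Ms n m ℂ :=
  Pi.single j (Matrix.single a b 1)

/-- `ℂ^n` -/
def Cn (n : ℕ) : ModuleCat.{0} ℂ := ModuleCat.of ℂ (Fin n → ℂ)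

/-- `∑ ν_i d_i` -/
def dot (I : Type) [Fintype I] (ν d : I → ℤ) : ℤ := ∑ i, ν i * d i

/-- The determinants of `1 × 1` matrices. -/
def dets {Φ : Type} (g : GLs fun _ : Φ => 1) (a : Φ) : ℂˣ := GeneralLinearGroup.det (g a)

/-- A quiver with arrows `e : src e → tgt e`, gauge dimensions `dv`, framing dimensions `dw`. -/
structure Qv where
  /-- vertices -/
  Vx : Type
  /-- arrows -/
  Ar : Type
  /-- finiteness -/
  fV : Fintype Vx
  /-- finiteness -/
  fA : Fintype Ar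
  /-- source -/
  src : Ar → Vx
  /-- target -/
  tgt : Ar → Vx
  /-- gauge dimensions -/
  dv : Vx → ℕ
  /-- framing dimensions -/
  dw : Vx → ℕ

namespace Qv

variable (Q : Qv)

/-- The dimension at the source. -/
abbrev ds (e : Q.Ar) : ℕ := Q.dv (Q.src e)

/-- The dimension at the target. -/
abbrev dt (e : Q.Ar) : ℕ := Q.dv (Q.tgt e)

/-- `N = ⨁ Hom(V_{s e}, V_{t e}) ⊕ ⨁ Hom(V_i, W_i)` over a ring `k`. -/
abbrev N (k : Type) : Type := Ms Q.dt Q.ds k × Ms Q.dw Q.dv k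

/-- `⨁ End(V_i)` over a ring `k`. -/
abbrev En (k : Type) : Type := Ms Q.dv Q.dv k

/-- `N` as a topological vector space. -/
def NV : TV := (TV.mats Q.dt Q.ds).times (TV.mats Q.dw Q.dv)

variable {Q} {k : Type}

/-- The arrow components. -/
def ar (x : Q.N k) : Ms Q.dt Q.ds k := x.1

/-- The framing components. -/
def fr (x : Q.N k) : Ms Q.dw Q.dv k := x.2

/-- An element of `N`. -/
def mkN (x : Ms Q.dt Q.ds k) (y : Ms Q.dw Q.dv k) : Q.N k := (x, y)

/-- The action of `G(k)` on `N(k)`. -/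
def gauge [CommRing k] (g : Q.En k) (x : Q.N k) : Q.N k :=
  mkN (fun e => mx k (mx k (g (Q.tgt e)) (ar x e)) (mi k (g (Q.src e))))
    fun i => mx k (fr x i) (mi k (g i))

/-- The action of the Lie algebra of `G` on `N`. -/
def lie (ξ : Q.En ℂ) (x : Q.N ℂ) : Q.N ℂ :=
  mkN (fun e a b => mx ℂ (ξ (Q.tgt e)) (ar x e) a b - mx ℂ (ar x e) (ξ (Q.src e)) a b)
    fun i a b => -mx ℂ (fr x i) (ξ i) a b

variable (Q)

/-- Tuples of subspaces `U_i ⊆ V_i`. -/
abbrev Sub : Type := ∀ i, Sm (Cn (Q.dv i))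

variable {Q}

/-- Membership -/
def In (U : Q.Sub) (i : Q.Vx) (u : Fin (Q.dv i) → ℂ) : Prop := smem (Cn _) (U i) u

/-- Subspaces `U_i ⊆ V_i` preserved by all arrows of the doubled quiver; the components of a point
`p` of `N^*` are given by the trace pairing. -/
def IsSub (x : Q.N ℂ) (p : Q.N ℂ → ℂ) (U : Q.Sub) : Prop :=
  ∀ e, (∀ u, In U (Q.src e) u → In U (Q.tgt e) (mv ℂ (ar x e) u)) ∧
    ∀ u, In U (Q.tgt e) u → In U (Q.src e)
      (mv ℂ (fun a b => p (mkN (elem _ _ e b a) fun _ _ _ => 0)) u)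

/-- `U` is killed by the framing maps `V_i → W_i`. -/
def InKer (x : Q.N ℂ) (U : Q.Sub) : Prop := ∀ i u, In U i u → mv ℂ (fr x i) u = fun _ => 0

/-- `U` contains the images of the framing maps `W_i → V_i`. -/
def HasIm (p : Q.N ℂ → ℂ) (U : Q.Sub) : Prop :=
  ∀ i u, In U i (mv ℂ (fun a l => p (mkN (fun _ _ _ => 0) (elem _ _ i l a))) u)

/-- `∑ ν_i dim U_i` -/
def pair (ν : Q.Vx → ℤ) (U : Q.Sub) : ℤ := @dot _ Q.fV ν fun i => rk (Cn _) (U i)

/-- `∑ ν_i v_i` -/
def pairV (ν : Q.Vx → ℤ) : ℤ := @dot _ Q.fV ν fun i => Q.dv i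

/-- `ν`-semistability. -/
def SemiSt (ν : Q.Vx → ℤ) (x : Q.N ℂ) (p : Q.N ℂ → ℂ) : Prop :=
  ∀ U, IsSub x p U → (InKer x U → 0 ≤ pair ν U) ∧ (HasIm p U → pairV ν ≤ pair ν U)

/-- `ν`-stability. -/
def St (ν : Q.Vx → ℤ) (x : Q.N ℂ) (p : Q.N ℂ → ℂ) : Prop :=
  ∀ U, IsSub x p U → (InKer x U → (∃ i, NeBot (Cn _) (U i)) → 0 < pair ν U) ∧
    (HasIm p U → (∃ i, NeTop (Cn _) (U i)) → pairV ν < pair ν U)

end Qv

/-- A framed quiver, a flavour torus `F = (ℂ^*)^Φ` acting on `N`, and a character `ν`. -/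
structure Dat where
  /-- the quiver -/
  qv : Qv
  /-- coordinates of the flavour torus -/
  Fl : Type
  /-- finiteness -/
  fF : Fintype Fl
  /-- the flavour action -/
  ro : (Fl → ℂˣ) → qv.N ℂ → qv.N ℂ
  /-- it is algebraic -/
  alg : @IsTor _ qv.NV.ag qv.NV.md Fl fF ro
  /-- it commutes with `G` -/
  comm : ∀ f g x, ro f (Qv.gauge (gmat _ g) x) = Qv.gauge (gmat _ g) (ro f x)
  /-- the character -/
  nu : qv.Vx → ℤ

end Vale.Agent.P291Y
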