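import Vale.Agent.P291Y.H0

/-!
# The quiver variety and the Kirwan map
-/

noncomputable section

namespace Vale.Agent.P291Y

namespace Dat

open Qv

variable (D : Dat)

/-- The dimensions of `G`. -/
def nG : Dim := ⟨D.qv.Vx, D.qv.fV, D.qv.dv⟩

/-- The dimensions of `F`. -/
def nF : Dim := ⟨D.Fl, D.fF, fun _ => 1⟩

/-- The dimensions of `G × F`. -/
def nn : Dim := D.nG.join D.nF

/-- `N` -/
abbrev Nc : Type := D.qv.N ℂ

/-- The gauge component of an element of `G × F`. -/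
def ga (g : GG D.nn) : D.qv.En ℂ := gmat _ (fstG D.nG D.nF g)

/-- The flavour component of an element of `G × F`. -/
def fl (g : GG D.nn) : D.Fl → ℂˣ := dets (sndG D.nG D.nF g)

/-- `N` as a representation of `G × F`. -/
def NN : VS (GG D.nn) := ⟨D.qv.NV, fun g x => gauge (D.ga g) (D.ro (D.fl g) x)⟩

/-- The dual representation `N^*`. -/
def ND : SG D.nn :=
  ⟨@dual _ D.qv.NV.ag D.qv.NV.md D.qv.NV.top, fun g =>
    @dtr _ D.qv.NV.ag D.qv.NV.md D.qv.NV.top (D.NN.rho (ginv _ g)) (by exact id (D.h1 (ginv _ g)))⟩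

/-- `N^*` -/
abbrev Nd : Type := D.ND.Pt

/-- The pairing of `N^*` and `N`. -/
def ev (p : D.Nd) : D.Nc → ℂ := @dev _ D.qv.NV.ag D.qv.NV.md D.qv.NV.top p

/-- The moment map vanishes. -/
def Mu (x : D.Nc) (p : D.Nd) : Prop := ∀ ξ, D.ev p (lie ξ x) = 0

/-- The subgroup `G` of `G × F`. -/
def InG (g : GG D.nn) : Prop := sndG D.nG D.nF g = gone _

/-- `ν` is regular. -/
def Regular : Prop :=
  ∀ x p, D.Mu x p → (SemiSt D.nu x (D.ev p) ↔ St D.nu x (D.ev p)) ∧ (St D.nu x (D.ev p) →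
    ∀ g, D.InG g → D.NN.rho g x = x → D.ND.act g p = p → g = gone _)

/-- The stable locus of `μ⁻¹(0)`. -/
def Zst : SG D.nn := sub (prod D.NN.gs D.ND)
  (fun z : D.Nc × D.Nd => D.Mu z.1 z.2 ∧ St D.nu z.1 (D.ev z.2)) (by exact id D.h2)

/-- `μ⁻¹(0)^st` as a `G`-space -/
def ZG : GS (Subtype D.InG) := res Subtype.val D.Zst

/-- The quiver variety `X = μ⁻¹(0)^st / G` with the action of `F`. -/
def XX : SG D.nF :=
  ⟨orb D.ZG, fun f => Quot.map (ra := Same D.ZG) (rb := Same D.ZG) (D.Zst.act (ginr _ _ f))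
    (by exact id (D.h3 f))⟩

/-- The point. -/
abbrev p1 : SG D.nn := pt _

/-- `c` is the characteristic class `r` of the principal `G`-bundle `μ⁻¹(0)^st → X`. -/
def Kirwan (r : CG D.p1) (c : CG D.XX) : Prop :=
  ∀ M, Coh (pull (X := Bo D.Zst M) (Y := Bo D.XX M) (omap D.Zst (EE _ M) D.XX (EE _ M)
    (fun z _ => omk D.ZG z) (resE _ Sum.inr M)) (c M)) (pull (bmap D.Zst _ (fun _ => ()) M) (r M))

end Dat

end Vale.Agent.P291Y
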